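import Vale.Agent.P207.H608.Nz

/-!
# P207, H608: the velocity of the normalized orbits of the geodesic flow of `g` in the frame
bundle of `g₀`
-/

open scoped Manifold ContDiff ENNReal Topology
open Bundle MeasureTheory Set Filter

noncomputable section

set_option maxSynthPendingDepth 3
set_option linter.unusedSectionVars false

namespace Vale.Agent.P207.H608

open Vale.Agent.P207.Q
open Vale.Agent.P255 (RMetric coefIn Gam Riem IsGeo Metric Npc ExpSys toMetric geo expg cc trans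
  IsGeodesic coefL chris chrisB IsMetricOn covD)

variable {n : ℕ} {M : Type} [TopologicalSpace M] [ChartedSpace (EV n) M]
  [IsManifold 𝓘(ℝ, EV n) ∞ M]

/-- the components of `g - g₀` in the frames of `g₀` -/
def kf (g₀ g : RMetric (EV n) M) (i j : Fin n) (f : Fr g₀) : ℝ :=
  (g.inner f.pt (f.e i) (f.e j) : ℝ) - if i = j then 1 else 0

variable {g₀ g : RMetric (EV n) M}

theorem inner_eq_kf (f : Fr g₀) (i j : Fin n) :
    (g.inner f.pt (f.e i) (f.e j) : ℝ) = (if i = j then 1 else 0) + kf g₀ g i j f := by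
  unfold kf; ring

theorem coef_eq_kf (f : Fr g₀) {a : M} (ha : f.pt ∈ (chartAt (EV n) a).source) (i j : Fin n) :
    (mt g).coef a (chF a f.1).1 ((chF a f.1).2 i) ((chF a f.1).2 j) =
      (if i = j then 1 else 0) + kf g₀ g i j f := by
  rw [← inner_eq_kf]
  exact inner_chF g a (f := f.1) ha i j

theorem kf_symm (i j : Fin n) (f : Fr g₀) : kf g₀ g i j f = kf g₀ g j i f := by
  unfold kf
  exact congrArg₂ (fun a b : ℝ => a - b) (g.symm f.pt (f.e i) (f.e j)) (by simp only [eq_comm])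

variable [NeZero n]

theorem smF_kf (i j : Fin n) : SmF (kf g₀ g i j) := by
  have hm := fun a : M => (mt g).isMetricOn a
  have hm₀ := fun a : M => (mt g₀).isMetricOn a
  refine SmF.congr_rd (F := fun a y => (mt g).coef a (gsSt ((mt g₀).coef a) y).1
    ((gsSt ((mt g₀).coef a) y).2 i) ((gsSt ((mt g₀).coef a) y).2 j) - if i = j then 1 else 0)
    (fun a y hy => ?_) fun a => ?_
  · rw [rd_of_mem _ hy]
    unfold kf
    congr 1
    have h1 := inner_chF g a (f := (frOf g₀ a y hy).1) (frOf_pt a hy) i j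
    rw [chF_frOf a hy] at h1
    exact h1.symm
  · intro y hy
    refine ContDiffAt.contDiffWithinAt ?_
    have h1 : ContDiffAt ℝ ∞ (gsSt ((mt g₀).coef a)) y := contDiffAt_gsSt (hm₀ a) hy
    have h2 : ContDiffAt ℝ ∞ (fun y => (mt g).coef a (gsSt ((mt g₀).coef a) y).1) y :=
      ContDiffAt.comp (g := (mt g).coef a) y ((hm a).contDiffAt hy.1) h1.fst
    have h3 : ∀ i, ContDiffAt ℝ ∞ (fun y => (gsSt ((mt g₀).coef a) y).2 i) y := fun i =>
      contDiffAt_pi.1 h1.snd i
    exact ((h2.clm_apply (h3 i)).clm_apply (h3 j)).sub contDiffAt_const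

/-- the derivative of `kf` along a curve of frames -/
theorem hasDerivAt_kf (i j : Fin n) {F : ℝ → Fr g₀} {t : ℝ} (hc : ContinuousAt F t) {a : M}
    (ha : (F t).pt ∈ (chartAt (EV n) a).source) {w : St (Fin n) n}
    (hF : HasDerivAt (fun r => chF a (F r).1) w t) :
    HasDerivAt (fun r => kf g₀ g i j (F r))
      (fderiv ℝ ((mt g).coef a) (chF a (F t).1).1 w.1 ((chF a (F t).1).2 i) ((chF a (F t).1).2 j) +
        (mt g).coef a (chF a (F t).1).1 (w.2 i) ((chF a (F t).1).2 j) +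
        (mt g).coef a (chF a (F t).1).1 ((chF a (F t).1).2 i) (w.2 j)) t := by
  have hm := (mt g).isMetricOn a
  have hu : (chF a (F t).1).1 ∈ (chartAt (EV n) a).target := (chartAt (EV n) a).map_source ha
  have h1 : HasDerivAt (fun r => (mt g).coef a (chF a (F r).1).1)
      (fderiv ℝ ((mt g).coef a) (chF a (F t).1).1 w.1) t :=
    (hm.differentiableAt hu).hasFDerivAt.comp_hasDerivAt t
      (show HasDerivAt (fun r => (chF a (F r).1).1) w.1 t from hF.fst)
  have h2 : ∀ i, HasDerivAt (fun r => (chF a (F r).1).2 i) (w.2 i) t := fun i =>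
    (hasDerivAt_pi.1 hF.snd) i
  have h3 := (((h1.clm_apply (h2 i)).clm_apply (h2 j)).sub_const (if i = j then (1 : ℝ) else 0))
  refine (h3.congr_deriv ?_).congr_of_eventuallyEq ?_
  · simp only [add_apply]
  · filter_upwards [eventually_source hc ha] with r hr
    rw [coef_eq_kf (F r) hr i j]
    ring

variable [CompactSpace M] [T2Space M]

/-- the horizontal derivatives of `kf` -/
theorem dZ_kf (m i j : Fin n) (f : Fr g₀) {a : M} (ha : f.pt ∈ (chartAt (EV n) a).source) :
    dZ (horZ g₀ (Pi.single m 1)) (kf g₀ g i j) f =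
      fderiv ℝ ((mt g).coef a) (chF a f.1).1 ((chF a f.1).2 m) ((chF a f.1).2 i) ((chF a f.1).2 j) -
        (mt g).coef a (chF a f.1).1
          (chris ((mt g₀).coef a) (chF a f.1).1 ((chF a f.1).2 m) ((chF a f.1).2 i))
          ((chF a f.1).2 j) -
        (mt g).coef a (chF a f.1).1 ((chF a f.1).2 i)
          (chris ((mt g₀).coef a) (chF a f.1).1 ((chF a f.1).2 m) ((chF a f.1).2 j)) := by
  have : Nonempty (Fr g₀) := ⟨f⟩
  have hΦ := isHorFlow_flow g₀ (Pi.single m 1)
  set Φ := Fl.CSys.flow (horVF g₀ (Pi.single m 1)) with hΦdef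
  have h0 : Φ 0 f = f := hΦ.zero f
  have h1 := hΦ.isFlow.hasDerivAt (smF_kf (g := g) i j) f 0
  have ha' : (Φ 0 f).pt ∈ (chartAt (EV n) a).source := by rw [h0]; exact ha
  have h2 := hasDerivAt_kf (g := g) i j (hΦ.continuous_left f).continuousAt ha' (hΦ.eqn f ha')
  rw [h0] at h1 h2
  refine (h1.unique h2).trans ?_
  have e1 : ∀ y : St (Fin n) n, (hF ((mt g₀).coef a) (Pi.single m 1) y).1 = y.2 m := by
    intro y; simp [hF, Pi.single_apply]
  have e2 : ∀ (y : St (Fin n) n) (i : Fin n), (hF ((mt g₀).coef a) (Pi.single m 1) y).2 i =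
      - chris ((mt g₀).coef a) y.1 (y.2 m) (y.2 i) := by
    intro y i; simp [hF, Pi.single_apply]
  rw [e1, e2, e2]
  simp only [map_neg, neg_apply]
  ring

/-- Koszul's formula for the difference of the Levi-Civita connections -/
theorem koszul_kf (i j l : Fin n) (f : Fr g₀) {a : M} (ha : f.pt ∈ (chartAt (EV n) a).source) :
    (mt g).coef a (chF a f.1).1
      (chris ((mt g).coef a) (chF a f.1).1 ((chF a f.1).2 i) ((chF a f.1).2 j) -
        chris ((mt g₀).coef a) (chF a f.1).1 ((chF a f.1).2 i) ((chF a f.1).2 j))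
      ((chF a f.1).2 l) =
    (dZ (horZ g₀ (Pi.single i 1)) (kf g₀ g j l) f + dZ (horZ g₀ (Pi.single j 1)) (kf g₀ g i l) f -
      dZ (horZ g₀ (Pi.single l 1)) (kf g₀ g i j) f) / 2 := by
  have hm := (mt g).isMetricOn a
  have hm₀ := (mt g₀).isMetricOn a
  have hu : (chF a f.1).1 ∈ (chartAt (EV n) a).target := (chartAt (EV n) a).map_source ha
  rw [dZ_kf i j l f ha, dZ_kf j i l f ha, dZ_kf l i j f ha]
  rw [map_sub, sub_apply, hm.chris_spec hu]
  rw [hm₀.chris_symm hu ((chF a f.1).2 j) ((chF a f.1).2 i),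
    hm₀.chris_symm hu ((chF a f.1).2 l) ((chF a f.1).2 i),
    hm₀.chris_symm hu ((chF a f.1).2 l) ((chF a f.1).2 j)]
  rw [hm.symm _ hu ((chF a f.1).2 i) (chris _ _ ((chF a f.1).2 j) ((chF a f.1).2 l)),
    hm.symm _ hu ((chF a f.1).2 j) (chris _ _ ((chF a f.1).2 i) ((chF a f.1).2 l))]
  ring

/-! ### the normalized orbit -/

section Orbit

variable {φ : ℝ → UT g → UT g}

/-- the state of the orbit of the geodesic flow -/
theorem hasDerivAt_chT (hφ : IsGeoFlow g φ) (p : UT g) {a : M}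
    (ha : p.pt ∈ (chartAt (EV n) a).source) :
    HasDerivAt (fun t => chT a (φ t p).1)
      ((chT a p.1).2, - chris ((mt g).coef a) (chT a p.1).1 (chT a p.1).2 (chT a p.1).2) 0 := by
  have hgeo := P255.isGeodesic_geo (mt g) p.pt (p.vec : EV n)
  have h0 : φ 0 p = p := hφ.zero p
  have ha0 : (φ 0 p).pt ∈ (chartAt (EV n) a).source := by rw [h0]; exact ha
  have hg0 : geo (mt g) p.pt (p.vec : EV n) 0 ∈ (chartAt (EV n) a).source := by
    rw [← hφ.pt_eq]; exact ha0
  have hev : ∀ᶠ t in 𝓝 (0 : ℝ), (φ t p).pt ∈ (chartAt (EV n) a).source :=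
    ((continuous_pt g).comp (hφ.continuous_left p)).continuousAt.preimage_mem_nhds
      ((chartAt (EV n) a).open_source.mem_nhds ha0)
  obtain ⟨e1, e2, e3⟩ := hgeo.eqn a 0 (mem_univ _) hg0
  have h1 := hφ.chT_eq (t := 0) (p := p) ha0
  rw [h0] at h1
  have h2 : HasDerivAt (fun t => (cc (E := EV n) (geo (mt g) p.pt (p.vec : EV n)) a t,
      deriv (cc (E := EV n) (geo (mt g) p.pt (p.vec : EV n)) a) t))
      (deriv (cc (E := EV n) (geo (mt g) p.pt (p.vec : EV n)) a) 0,
        deriv (deriv (cc (E := EV n) (geo (mt g) p.pt (p.vec : EV n)) a)) 0) 0 :=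
    e1.hasDerivAt.prodMk e2.hasDerivAt
  rw [e3] at h2
  rw [h1]
  refine h2.congr_of_eventuallyEq ?_
  filter_upwards [hev] with t ht
  exact hφ.chT_eq ht

/-- the velocity of the normalized orbit, in the frame bundle of `g₀` -/
theorem exists_lift_nz (hφ : IsGeoFlow g φ) (p : UT g) {f₀ : Fr g₀} (hf₀ : f₀.ut 0 = nz g₀ p)
    {a : M} (ha : f₀.pt ∈ (chartAt (EV n) a).source) :
    ∃ F : ℝ → Fr g₀, F 0 = f₀ ∧ (∀ᶠ t in 𝓝 0, (F t).ut 0 = nz g₀ (φ t p)) ∧
      ContinuousAt F 0 ∧ ∃ (B : Matrix (Fin n) (Fin n) ℝ) (S : Fin n → ℝ),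
        B.transpose = -B ∧
        (∀ l, S l + ∑ m, S m * kf g₀ g m l f₀ =
          dZ (horZ g₀ (Pi.single 0 1)) (kf g₀ g 0 l) f₀ -
            dZ (horZ g₀ (Pi.single l 1)) (kf g₀ g 0 0) f₀ / 2) ∧
        (∀ j, j ≠ 0 → B j 0 = - (nrm g g₀ p * S j)) ∧
        HasDerivAt (fun t => chF a (F t).1)
          (tvec ((mt g₀).coef a) (Pi.single 0 (nrm g g₀ p)) B (chF a f₀.1)) 0 := by
  have hm := (mt g).isMetricOn a
  have hm₀ := (mt g₀).isMetricOn a
  have hpt : p.pt = f₀.pt := by
    have h1 := congrArg UT.pt hf₀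
    exact h1.symm
  have ha' : p.pt ∈ (chartAt (EV n) a).source := by rw [hpt]; exact ha
  have h0 : φ 0 p = p := hφ.zero p
  set r := nrm g g₀ p with hr
  have hrpos : 0 < r := nrm_pos p
  set y := chF a f₀.1 with hy
  have hu : y.1 ∈ (chartAt (EV n) a).target := (chartAt (EV n) a).map_source ha
  have ho : Orth ((mt g₀).coef a y.1) y.2 := orth_chFg g₀ f₀ a ha
  set v₀ := (chT a p.1).2 with hv₀
  have hx : (chT a p.1).1 = y.1 := by
    change chartAt (EV n) a p.pt = chartAt (EV n) a f₀.pt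
    rw [hpt]
  have hv : v₀ = r • y.2 0 := by
    have h1 : chT a (f₀.ut 0).1 = (y.1, y.2 0) := chT_vec a f₀.1 0
    rw [hf₀, chT_nz] at h1
    have h2 : r⁻¹ • v₀ = y.2 0 := congrArg Prod.snd h1
    rw [← h2, smul_smul, mul_inv_cancel₀ hrpos.ne', one_smul]
  -- the state of the orbit
  have hst := hasDerivAt_chT hφ p ha'
  rw [← hv₀, hx] at hst
  have hsrc : ∀ᶠ t in 𝓝 (0 : ℝ), (φ t p).pt ∈ (chartAt (EV n) a).source :=
    ((continuous_pt g).comp (hφ.continuous_left p)).continuousAt.preimage_mem_nhds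
      ((chartAt (EV n) a).open_source.mem_nhds (by
        change (φ 0 p).pt ∈ _
        rw [h0]; exact ha'))
  have hst1 : HasDerivAt (fun t => (chT a (φ t p).1).1) v₀ 0 := hst.fst
  have hst2 : HasDerivAt (fun t => (chT a (φ t p).1).2)
      (- chris ((mt g).coef a) y.1 v₀ v₀) 0 := hst.snd
  -- the length
  have hx0 : (chT a (φ 0 p).1).1 = y.1 := by rw [h0]; exact hx
  have hv0 : (chT a (φ 0 p).1).2 = v₀ := by rw [h0]
  obtain ⟨r', hr'⟩ : ∃ r', HasDerivAt (fun t => nrm g g₀ (φ t p)) r' 0 := by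
    have h1 := hm₀.hasDerivAt_inner (c := fun t => (chT a (φ t p).1).1)
      (X := fun t => (chT a (φ t p).1).2) (Y := fun t => (chT a (φ t p).1).2) (t := 0)
      (by rw [hx0]; exact hu) hst1.differentiableAt hst2.differentiableAt hst2.differentiableAt
    have h2 : (mt g₀).coef a (chT a (φ 0 p).1).1 (chT a (φ 0 p).1).2 (chT a (φ 0 p).1).2 ≠ 0 := by
      rw [hx0, hv0, hv]
      refine (hm₀.pos y.1 hu _ ?_).ne'
      intro h3
      have h4 := ho 0 0
      rw [if_pos rfl] at h4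
      have h5 : y.2 0 = 0 := (smul_eq_zero.1 h3).resolve_left hrpos.ne'
      rw [h5] at h4
      simp at h4
    refine ⟨_, (h1.sqrt h2).congr_of_eventuallyEq ?_⟩
    filter_upwards [hsrc] with t ht
    have h3 := inner_chT g₀ a (p := (φ t p).1) ht
    change Real.sqrt (g₀.inner (φ t p).1.1 (φ t p).1.2 (φ t p).1.2) = _
    rw [← h3]
    rfl
  have hinv : HasDerivAt (fun t => (nrm g g₀ (φ t p))⁻¹) (-r' / r ^ 2) 0 := by
    have h1 := hr'.inv (by rw [h0]; exact hrpos.ne')
    rw [h0] at h1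
    exact h1
  have hst3 : HasDerivAt (fun t => (nrm g g₀ (φ t p))⁻¹ • (chT a (φ t p).1).2)
      (r⁻¹ • (- chris ((mt g).coef a) y.1 v₀ v₀) + (-r' / r ^ 2) • v₀) 0 := by
    have h1 := hinv.smul hst2
    rw [h0] at h1
    exact h1
  have hc : HasDerivAt (fun t => chT a (nz g₀ (φ t p)).1)
      (v₀, r⁻¹ • (- chris ((mt g).coef a) y.1 v₀ v₀) + (-r' / r ^ 2) • v₀) 0 := by
    refine (hst1.prodMk hst3).congr_of_eventuallyEq (Eventually.of_forall fun t => ?_)
    exact chT_nz a (φ t p)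
  -- the lift
  have hcont : ContinuousAt (fun t => nz g₀ (φ t p)) 0 :=
    (continuous_nz.comp (hφ.continuous_left p)).continuousAt
  obtain ⟨F, hF0, hFut, hFc, w, hFd, hw1, hw2⟩ := exists_lift (c := fun t => nz g₀ (φ t p)) hcont
    (f₀ := f₀) (by rw [hf₀]; simp only [h0]) ha hc
  have hFsrc : (F 0).pt ∈ (chartAt (EV n) a).source := by rw [hF0]; exact ha
  have hskew := cV_skew hm₀ (y := fun t => chF a (F t).1) (t := 0)
    (by change (chF a (F 0).1).1 ∈ _; rw [hF0]; exact hu)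
    (by
      filter_upwards [eventually_source hFc hFsrc] with t ht
      exact orth_chFg g₀ (F t) a ht) hFd
  simp only [hF0] at hskew
  rw [← hy] at hskew
  -- the components
  set D : EV n := chris ((mt g).coef a) y.1 (y.2 0) (y.2 0) -
    chris ((mt g₀).coef a) y.1 (y.2 0) (y.2 0) with hD
  set S : Fin n → ℝ := fun j => (mt g₀).coef a y.1 D (y.2 j) with hS
  have hcH : cH ((mt g₀).coef a) y w = Pi.single 0 r := by
    funext i
    unfold cH
    rw [hw1, hv, map_smul, smul_apply, smul_eq_mul, ho 0 i, Pi.single_apply]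
    by_cases hi : i = 0
    · rw [if_pos hi, if_pos hi.symm, mul_one]
    · rw [if_neg hi, if_neg (fun h => hi h.symm), mul_zero]
  have hchris : ∀ G : EV n → EV n →L[ℝ] EV n →L[ℝ] ℝ,
      chris G y.1 (r • y.2 0) (r • y.2 0) = (r * r) • chris G y.1 (y.2 0) (y.2 0) := by
    intro G
    rw [← P255.chrisB_apply, ← P255.chrisB_apply]
    simp only [map_smul, smul_apply, smul_smul]
  have hchris' : ∀ G : EV n → EV n →L[ℝ] EV n →L[ℝ] ℝ,
      chris G y.1 (r • y.2 0) (y.2 0) = r • chris G y.1 (y.2 0) (y.2 0) := by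
    intro G
    rw [← P255.chrisB_apply, ← P255.chrisB_apply, map_smul, smul_apply]
  have hcV : ∀ j, j ≠ 0 → cV ((mt g₀).coef a) y w j 0 = - (r * S j) := by
    intro j hj
    unfold cV
    rw [Matrix.of_apply, hw1, hw2]
    have e1 : r⁻¹ • (- chris ((mt g).coef a) y.1 v₀ v₀) + (-r' / r ^ 2) • v₀ +
        chris ((mt g₀).coef a) y.1 v₀ (y.2 0) = (-r) • D + (-r' / r) • y.2 0 := by
      rw [hv, hchris, hchris', hD, smul_neg, smul_smul, smul_smul, smul_sub]
      have e2 : r⁻¹ * (r * r) = r := by field_simp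
      have e3 : -r' / r ^ 2 * r = -r' / r := by field_simp
      rw [e2, e3]
      module
    rw [e1, map_add, add_apply, map_smul, map_smul, smul_apply, smul_apply, ho 0 j,
      if_neg (fun h => hj h.symm)]
    simp only [smul_eq_mul, mul_zero, add_zero, hS]
    ring
  refine ⟨F, hF0, hFut, hFc, cV ((mt g₀).coef a) y w, S, hskew, ?_, hcV, ?_⟩
  · intro l
    have h1 := koszul_kf (g := g) 0 0 l f₀ ha
    rw [← hy, ← hD] at h1
    have h2 : D = ∑ m, S m • y.2 m :=
      (Brk.sum_orth hm₀ hu (by simp) ho D).symm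
    have h3 : (mt g).coef a y.1 D (y.2 l) = S l + ∑ m, S m * kf g₀ g m l f₀ := by
      conv_lhs => rw [h2]
      rw [map_sum, sum_apply]
      have h4 : ∀ m, ((mt g).coef a y.1 (S m • y.2 m)) (y.2 l) =
          S m * (if m = l then 1 else 0) + S m * kf g₀ g m l f₀ := by
        intro m
        rw [map_smul, smul_apply, smul_eq_mul, ← mul_add, hy, coef_eq_kf f₀ ha m l]
      simp only [h4, Finset.sum_add_distrib]
      simp
    rw [← h3, h1]
    ring
  · have h1 := eq_tvec hm₀ hu ho w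
    rw [hcH] at h1
    rw [← h1]
    exact hFd

end Orbit

end Vale.Agent.P207.H608
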