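import Vale.Agent.P207.H608.Stretch

/-!
# P207, H608: the geodesic flow on the whole tangent bundle is continuous; test maps from
vector fields along the unit tangent bundle
-/

open scoped Manifold ContDiff ENNReal Topology unitInterval
open Bundle MeasureTheory Set Filter

noncomputable section

set_option maxSynthPendingDepth 3

namespace Vale.Agent.P207.H608

open Vale.Agent.P255 (RMetric coefIn Gam Riem IsGeo Metric Npc ExpSys toMetric geo expg cc trans
  IsGeodesic coefL)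

variable {n : ℕ} {M : Type} [TopologicalSpace M] [ChartedSpace (EV n) M]
  [IsManifold 𝓘(ℝ, EV n) ∞ M] [CompactSpace M] [T2Space M]

/-- The geodesic flow on the tangent bundle. -/
def gf (g : RMetric (EV n) M) (t : ℝ) (p : TangentBundle 𝓘(ℝ, EV n) M) :
    TangentBundle 𝓘(ℝ, EV n) M :=
  stv (geo (mt g) p.1 (p.2 : EV n)) t

variable (g : RMetric (EV n) M)

theorem gf_zero (p : TangentBundle 𝓘(ℝ, EV n) M) : gf g 0 p = p := stv_geo_zero g p

theorem gf_add (s t : ℝ) (p : TangentBundle 𝓘(ℝ, EV n) M) :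
    gf g (s + t) p = gf g s (gf g t p) := by
  have h1 := P255.isGeodesic_geo (mt g) p.1 (p.2 : EV n)
  have h2 := isGeodesic_shift h1 t
  have h3 : stv (n := n) (fun s => geo (mt g) p.1 (p.2 : EV n) (s + t)) 0 = gf g t p := by
    rw [stv_shift, zero_add]; rfl
  have h4 := eq_geo h2 h3
  have h5 : gf g s (gf g t p) = stv (fun s => geo (mt g) p.1 (p.2 : EV n) (s + t)) s := by
    rw [h4]; rfl
  rw [h5, stv_shift]
  rfl

theorem gf_fst (t : ℝ) (p : TangentBundle 𝓘(ℝ, EV n) M) :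
    (gf g t p).1 = geo (mt g) p.1 (p.2 : EV n) t := rfl

theorem chT_gf {t : ℝ} {p : TangentBundle 𝓘(ℝ, EV n) M} {a : M}
    (ha : (gf g t p).1 ∈ (chartAt (EV n) a).source) :
    chT a (gf g t p) = (cc (geo (mt g) p.1 (p.2 : EV n)) a t,
      deriv (cc (E := EV n) (geo (mt g) p.1 (p.2 : EV n)) a) t) :=
  chT_stv (P255.isGeodesic_geo (mt g) p.1 (p.2 : EV n)) ha

/-- flow boxes of the geodesic flow on the tangent bundle -/
theorem exists_box_gf (p₀ : TangentBundle 𝓘(ℝ, EV n) M) {a : M}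
    (ha : p₀.1 ∈ (chartAt (EV n) a).source) :
    ∃ ε > 0, ∃ W : Set (EV n × EV n), IsOpen W ∧ chT a p₀ ∈ W ∧
      W ⊆ (chartAt (EV n) a).target ×ˢ (univ : Set (EV n)) ∧
      ∃ Φ : ℝ → EV n × EV n → EV n × EV n,
      (∀ x ∈ W, Φ 0 x = x) ∧
      (∀ x ∈ W, ∀ t ∈ Ioo (-ε) ε, Φ t x ∈ (chartAt (EV n) a).target ×ˢ (univ : Set (EV n)) ∧
        HasDerivAt (fun s => Φ s x) (P255.geoField ((mt g).coef a) (Φ t x)) t) ∧
      ContDiffOn ℝ 1 (fun p : ℝ × (EV n × EV n) => Φ p.1 p.2) (Ioo (-ε) ε ×ˢ W) ∧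
      ∀ p : TangentBundle 𝓘(ℝ, EV n) M, p.1 ∈ (chartAt (EV n) a).source → chT a p ∈ W →
        ∀ t ∈ Ioo (-ε) ε,
        (gf g t p).1 ∈ (chartAt (EV n) a).source ∧ chT a (gf g t p) = Φ t (chT a p) := by
  obtain ⟨ε, hε, W, hWo, hxW, Φ, hΦ0, hΦ, hΦ1, -⟩ :=
    P255.exists_flow (P255.geoField ((mt g).coef a))
    ((chartAt (EV n) a).target ×ˢ (univ : Set (EV n)))
    ((chartAt (EV n) a).open_target.prod isOpen_univ) ((mt g).isMetricOn a).contDiffOn_geoField
    (chT a p₀) ⟨(chartAt (EV n) a).map_source ha, mem_univ _⟩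
  refine ⟨ε, hε, W, hWo, hxW, ?_, Φ, hΦ0, hΦ, hΦ1, ?_⟩
  · intro x hx
    have h := (hΦ x hx 0 ⟨by linarith only [hε], hε⟩).1
    rwa [hΦ0 x hx] at h
  · intro p hp hpW t ht
    have hgeo := P255.isGeodesic_geo (mt g) p.1 (p.2 : EV n)
    have h0 : chT a p = (cc (geo (mt g) p.1 (p.2 : EV n)) a 0,
        deriv (cc (E := EV n) (geo (mt g) p.1 (p.2 : EV n)) a) 0) := by
      have h1 := chT_gf g (t := 0) (p := p) (a := a) (by rw [gf_zero]; exact hp)
      rw [gf_zero] at h1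
      exact h1
    have hz : geo (mt g) p.1 (p.2 : EV n) 0 = p.1 := P255.geo_zero (mt g) _ _
    have hp0 : geo (mt g) p.1 (p.2 : EV n) 0 ∈ (chartAt (EV n) a).source :=
      (congrArg (fun x => x ∈ (chartAt (EV n) a).source) hz).mpr hp
    have h2 := hgeo.flow hε hΦ0 hΦ (t₀ := 0) (a := a) hp0 (by rw [← h0]; exact hpW) ht
    rw [zero_add, ← h0] at h2
    have h3 : (gf g t p).1 ∈ (chartAt (EV n) a).source := h2.1
    exact ⟨h3, (chT_gf g h3).trans h2.2⟩

theorem continuous_local_gf (p₀ : TangentBundle 𝓘(ℝ, EV n) M) :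
    ∃ U ∈ 𝓝 p₀, ∃ ε > 0, ∀ p ∈ U, ∀ t : ℝ, |t| < ε →
      ContinuousAt (fun q : ℝ × TangentBundle 𝓘(ℝ, EV n) M => gf g q.1 q.2) (t, p) := by
  have ha : p₀.1 ∈ (chartAt (EV n) p₀.1).source := mem_chart_source _ _
  set a := p₀.1 with hadef
  obtain ⟨ε, hε, W, hWo, hxW, hWt, Φ, hΦ0, hΦ, hΦ1, hbox⟩ := exists_box_gf g p₀ ha
  have hU : {p : TangentBundle 𝓘(ℝ, EV n) M | p.1 ∈ (chartAt (EV n) a).source ∧ chT a p ∈ W} ∈
      𝓝 p₀ := by
    refine inter_mem ?_ ?_
    · exact continuous_pt_TB.continuousAt.preimage_mem_nhds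
        ((chartAt (EV n) a).open_source.mem_nhds ha)
    · exact (continuousAt_chT a ha).preimage_mem_nhds (hWo.mem_nhds hxW)
  obtain ⟨U, hUsub, hUo, hU0⟩ := mem_nhds_iff.1 hU
  refine ⟨U, hUo.mem_nhds hU0, ε, hε, fun p hp t ht => ?_⟩
  have htε : t ∈ Ioo (-ε) ε := abs_lt.1 ht
  have hpU := hUsub hp
  have h1 : ∀ᶠ q : ℝ × TangentBundle 𝓘(ℝ, EV n) M in 𝓝 (t, p), q.1 ∈ Ioo (-ε) ε ∧ q.2 ∈ U := by
    have h2 : ∀ᶠ q : ℝ × TangentBundle 𝓘(ℝ, EV n) M in 𝓝 (t, p), q.1 ∈ Ioo (-ε) ε :=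
      continuous_fst.continuousAt.eventually (isOpen_Ioo.mem_nhds htε)
    have h3 : ∀ᶠ q : ℝ × TangentBundle 𝓘(ℝ, EV n) M in 𝓝 (t, p), q.2 ∈ U :=
      continuous_snd.continuousAt.eventually (hUo.mem_nhds hp)
    exact h2.and h3
  have h2 : (fun q : ℝ × TangentBundle 𝓘(ℝ, EV n) M => gf g q.1 q.2) =ᶠ[𝓝 (t, p)]
      fun q => chTs a (Φ q.1 (chT a q.2)) := by
    filter_upwards [h1] with q hq
    have h3 := hbox q.2 (hUsub hq.2).1 (hUsub hq.2).2 q.1 hq.1
    rw [← h3.2]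
    exact (chTs_chT a h3.1).symm
  have h3 : ContinuousAt (fun q : ℝ × TangentBundle 𝓘(ℝ, EV n) M =>
      chTs a (Φ q.1 (chT a q.2))) (t, p) := by
    have h4 : ContinuousAt (fun x : ℝ × (EV n × EV n) => Φ x.1 x.2) (t, chT a p) :=
      (hΦ1.contDiffAt ((isOpen_Ioo.prod hWo).mem_nhds ⟨htε, hpU.2⟩)).continuousAt
    have h5 : ContinuousAt (fun q : ℝ × TangentBundle 𝓘(ℝ, EV n) M => (q.1, chT a q.2))
        (t, p) := by
      refine continuousAt_fst.prodMk ?_
      exact ContinuousAt.comp (g := chT a) (f := fun q : ℝ × TangentBundle 𝓘(ℝ, EV n) M => q.2)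
        (continuousAt_chT a hpU.1) continuous_snd.continuousAt
    have h6 := ContinuousAt.comp
      (f := fun q : ℝ × TangentBundle 𝓘(ℝ, EV n) M => (q.1, chT a q.2))
      (g := fun x : ℝ × (EV n × EV n) => Φ x.1 x.2) (x := (t, p)) h4 h5
    exact ContinuousAt.comp (g := chTs a) (x := (t, p))
      (f := fun q : ℝ × TangentBundle 𝓘(ℝ, EV n) M => Φ q.1 (chT a q.2))
      (continuousAt_chTs a (hΦ (chT a p) hpU.2 t htε).1.1) h6
  exact h3.congr h2.symm

/-- The geodesic flow on the tangent bundle is continuous. -/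
theorem continuous_gf :
    Continuous (fun q : ℝ × TangentBundle 𝓘(ℝ, EV n) M => gf g q.1 q.2) := by
  rw [continuous_iff_continuousAt]
  rintro ⟨t₀, p⟩
  -- the orbit of `p` is continuous
  have horb : Continuous (fun t => gf g t p) := by
    rw [continuous_iff_continuousAt]
    intro t
    obtain ⟨U, hU, ε, hε, h⟩ := continuous_local_gf g (gf g t p)
    have h1 := h (gf g t p) (mem_of_mem_nhds hU) 0 (by simpa using hε)
    have h2 : ContinuousAt (fun s : ℝ => (s - t, gf g t p)) t := by fun_prop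
    have h3 : ContinuousAt (fun s : ℝ => gf g (s - t) (gf g t p)) t := by
      refine ContinuousAt.comp (g := fun q : ℝ × TangentBundle 𝓘(ℝ, EV n) M => gf g q.1 q.2)
        (f := fun s : ℝ => (s - t, gf g t p)) ?_ h2
      simpa using h1
    refine h3.congr (Eventually.of_forall fun s => ?_)
    change gf g (s - t) (gf g t p) = gf g s p
    rw [← gf_add, sub_add_cancel]
  set T := |t₀| + 1 with hT
  have hTpos : 0 < T := by positivity
  have h1 : ∃ ε > 0, ∀ s ∈ Icc (-T) T, ∀ t : ℝ, |t| < ε →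
      ContinuousAt (fun q : ℝ × TangentBundle 𝓘(ℝ, EV n) M => gf g q.1 q.2) (t, gf g s p) := by
    refine isCompact_Icc.induction_on (p := fun S : Set ℝ => ∃ ε > 0, ∀ s ∈ S, ∀ t : ℝ,
      |t| < ε → ContinuousAt (fun q : ℝ × TangentBundle 𝓘(ℝ, EV n) M => gf g q.1 q.2)
        (t, gf g s p)) ?_ ?_ ?_ ?_
    · exact ⟨1, one_pos, fun p hp => hp.elim⟩
    · rintro S T hST ⟨ε, hε, h⟩
      exact ⟨ε, hε, fun p hp => h p (hST hp)⟩
    · rintro S T ⟨ε, hε, h⟩ ⟨ε', hε', h'⟩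
      refine ⟨min ε ε', lt_min hε hε', ?_⟩
      rintro s (hs | hs) t ht
      · exact h s hs t (lt_of_lt_of_le ht (min_le_left _ _))
      · exact h' s hs t (lt_of_lt_of_le ht (min_le_right _ _))
    · intro s _
      obtain ⟨U, hU, ε, hε, h⟩ := continuous_local_gf g (gf g s p)
      exact ⟨(fun t => gf g t p) ⁻¹' U, mem_nhdsWithin_of_mem_nhds
        (horb.continuousAt.preimage_mem_nhds hU), ε, hε, fun r hr => h _ hr⟩
  obtain ⟨ε, hε, h1⟩ := h1
  have h2 : ∀ N : ℕ, ∀ t : ℝ, |t| < T → |t| < (N + 1) * ε →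
      ContinuousAt (fun q : ℝ × TangentBundle 𝓘(ℝ, EV n) M => gf g q.1 q.2) (t, p) := by
    intro N
    induction N with
    | zero =>
      intro t hT1 ht
      have h3 := h1 0 ⟨by linarith, hTpos.le⟩ t (by simpa using ht)
      rwa [gf_zero] at h3
    | succ N ih =>
      intro t htT ht
      push_cast at ht
      set k : ℝ := (N : ℝ) + 1 with hk
      have hk0 : 0 < k := by positivity
      have e1 : ∀ (s : ℝ) (x : TangentBundle 𝓘(ℝ, EV n) M),
          gf g s x = gf g (s / (k + 1)) (gf g (s * k / (k + 1)) x) := by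
        intro s x
        rw [← gf_add]
        congr 1
        field_simp
        ring
      have e2 : |t * k / (k + 1)| < k * ε := by
        rw [abs_div, abs_mul, abs_of_pos hk0, abs_of_pos (by positivity : (0 : ℝ) < k + 1),
          div_lt_iff₀ (by positivity)]
        calc |t| * k < (k + 1) * ε * k := mul_lt_mul_of_pos_right ht hk0
          _ = k * ε * (k + 1) := by ring
      have e2' : |t * k / (k + 1)| < T := by
        rw [abs_div, abs_mul, abs_of_pos hk0, abs_of_pos (by positivity : (0 : ℝ) < k + 1),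
          div_lt_iff₀ (by positivity)]
        nlinarith [abs_nonneg t]
      have e3 : |t / (k + 1)| < ε := by
        rw [abs_div, abs_of_pos (by positivity : (0 : ℝ) < k + 1), div_lt_iff₀ (by positivity)]
        calc |t| < (k + 1) * ε := ht
          _ = ε * (k + 1) := by ring
      have e4 : ContinuousAt (fun q : ℝ × TangentBundle 𝓘(ℝ, EV n) M =>
          gf g (q.1 * k / (k + 1)) q.2) (t, p) := by
        refine ContinuousAt.comp (g := fun q : ℝ × TangentBundle 𝓘(ℝ, EV n) M => gf g q.1 q.2)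
          (f := fun q : ℝ × TangentBundle 𝓘(ℝ, EV n) M => (q.1 * k / (k + 1), q.2)) ?_ ?_
        · exact ih (t * k / (k + 1)) e2' e2
        · fun_prop
      have e5 : ContinuousAt (fun q : ℝ × TangentBundle 𝓘(ℝ, EV n) M =>
          gf g (q.1 / (k + 1)) (gf g (q.1 * k / (k + 1)) q.2)) (t, p) := by
        refine ContinuousAt.comp (g := fun q : ℝ × TangentBundle 𝓘(ℝ, EV n) M => gf g q.1 q.2)
          (f := fun q : ℝ × TangentBundle 𝓘(ℝ, EV n) M =>
            (q.1 / (k + 1), gf g (q.1 * k / (k + 1)) q.2)) ?_ ?_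
        · refine h1 (t * k / (k + 1)) ?_ (t / (k + 1)) e3
          exact ⟨(abs_lt.1 e2').1.le, (abs_lt.1 e2').2.le⟩
        · refine ContinuousAt.prodMk ?_ e4
          fun_prop
      refine e5.congr (Eventually.of_forall fun q => ?_)
      exact (e1 q.1 q.2).symm
  obtain ⟨N, hN⟩ := exists_nat_gt (|t₀| / ε)
  refine h2 N t₀ (by rw [hT]; linarith) ?_
  rw [div_lt_iff₀ hε] at hN
  nlinarith

/-- The exponential map is continuous on the tangent bundle. -/
theorem continuous_expg_TB :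
    Continuous (fun p : TangentBundle 𝓘(ℝ, EV n) M => expg (mt g) p.1 (p.2 : EV n)) :=
  continuous_pt_TB.comp ((continuous_gf g).comp
    (by fun_prop : Continuous fun p : TangentBundle 𝓘(ℝ, EV n) M => ((1 : ℝ), p)))

/-- The map `(t, x, v) ↦ exp_x (t v)` is continuous. -/
theorem continuous_geo_TB :
    Continuous (fun q : ℝ × TangentBundle 𝓘(ℝ, EV n) M =>
      geo (mt g) q.2.1 (q.2.2 : EV n) q.1) :=
  continuous_pt_TB.comp (continuous_gf g)

/-! ### test maps from vector fields along the projection of the unit tangent bundle -/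

section OfExp

variable {g₀ g₁ g₂ : RMetric (EV n) M} {φ : ℝ → UT g₀ → UT g₀}

/-- The homotopy of the test map `p ↦ exp (Y p)`, `exp` the exponential map of `g₂`. -/
def expHom (g₂ : RMetric (EV n) M) (Y : UT g₀ → EV n) (q : I × UT g₀) : M :=
  geo (mt g₂) q.2.pt (Y q.2) q.1

theorem expHom_zero (Y : UT g₀ → EV n) (p : UT g₀) : expHom g₂ Y (0, p) = p.pt :=
  P255.geo_zero (mt g₂) _ _

theorem expHom_one (Y : UT g₀ → EV n) (p : UT g₀) :
    expHom g₂ Y (1, p) = expg (mt g₂) p.pt (Y p) := rfl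

theorem continuous_expHom {Y : UT g₀ → EV n}
    (hY : Continuous fun p : UT g₀ => (⟨p.pt, Y p⟩ : TangentBundle 𝓘(ℝ, EV n) M)) :
    Continuous (expHom g₂ Y) := by
  have h1 : Continuous fun q : I × UT g₀ =>
      (((q.1 : ℝ), (⟨q.2.pt, Y q.2⟩ : TangentBundle 𝓘(ℝ, EV n) M)) :
        ℝ × TangentBundle 𝓘(ℝ, EV n) M) :=
    (continuous_subtype_val.comp continuous_fst).prodMk (hY.comp continuous_snd)
  exact (continuous_geo_TB g₂).comp h1

/-- the length of a geodesic path with respect to its own metric -/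
theorem len_of_apply (h₂ : Npc (mt g₂)) {x y z : M} (hx : y = x) (γ : Path y z) (v : EV n)
    (h : ∀ t : I, γ t = geo (mt g₂) x v t) :
    (sys g₂ h₂).len (Path.Homotopic.Quotient.mk γ) = (sys g₂ h₂).nrm x v := by
  subst hx
  have h1 := (sys g₂ h₂).vec_mk γ ⟨fun t : I => (t : ℝ) • v, by fun_prop⟩ (by simp) (by
    intro t
    rw [h t]
    exact P255.expg_smul (mt g₂) y v t)
  unfold ExpSys.len
  rw [h1]
  simp

theorem exists_bound_expHom (h₁ : Npc (mt g₁)) (h₂ : Npc (mt g₂)) {Y : UT g₀ → EV n}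
    (hY : Continuous fun p : UT g₀ => (⟨p.pt, Y p⟩ : TangentBundle 𝓘(ℝ, EV n) M)) :
    ∃ R : ℝ, ∀ p, (sys g₁ h₁).len (Path.Homotopic.Quotient.mk
      (⟨⟨fun s => expHom g₂ Y (s, p), (continuous_expHom (g₂ := g₂) hY).comp (by fun_prop)⟩,
        rfl, rfl⟩ : Path (expHom g₂ Y (0, p)) (expHom g₂ Y (1, p)))) ≤ R := by
  obtain ⟨ψ, hψ⟩ := exists_geoFlow g₂
  obtain ⟨K, hK0, hK⟩ := exists_len_le_mul hψ h₂ h₁
  have := compactSpace_UT g₀
  have hc : Continuous fun p : UT g₀ => (sys g₂ h₂).nrm p.pt (Y p) := by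
    have h1 : Continuous fun p : UT g₀ =>
        g₂.inner (⟨p.pt, Y p⟩ : TangentBundle 𝓘(ℝ, EV n) M).1
          (⟨p.pt, Y p⟩ : TangentBundle 𝓘(ℝ, EV n) M).2
          (⟨p.pt, Y p⟩ : TangentBundle 𝓘(ℝ, EV n) M).2 := (continuous_inner_TB g₂).comp hY
    refine (h1.sqrt).congr fun p => ?_
    unfold ExpSys.nrm
    congr 1
    exact (ip_eq g₂ p.pt (Y p) (Y p)).symm
  obtain ⟨B, hB⟩ := (isCompact_range hc).isBounded.exists_norm_le
  refine ⟨K * B, fun p => (hK _ _ _).trans (mul_le_mul_of_nonneg_left ?_ hK0)⟩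
  rw [len_of_apply h₂ (expHom_zero (g₂ := g₂) Y p) _ (Y p) (fun t => rfl)]
  exact (le_abs_self _).trans (hB _ (mem_range_self p))

/-- The test map `p ↦ exp (Y p)`, where `Y p` is a tangent vector at the base point of `p`. -/
def TestMap.ofExp (g₂ : RMetric (EV n) M) (h₁ : Npc (mt g₁)) (h₂ : Npc (mt g₂))
    (Y : UT g₀ → EV n)
    (hY : Continuous fun p : UT g₀ => (⟨p.pt, Y p⟩ : TangentBundle 𝓘(ℝ, EV n) M))
    (V : UT g₀ → EV n) (w : UT g₀ → ℝ) (cont_w : Continuous w)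
    (deriv : ∀ p, HasDerivAt (fun t => chartAt (EV n) (expg (mt g₂) p.pt (Y p))
      (expg (mt g₂) (φ t p).pt (Y (φ t p)))) (V p) 0)
    (speed : ∀ p, (sys g₁ h₁).nrm (expg (mt g₂) p.pt (Y p)) (V p) ≤ w p) :
    TestMap g₀ g₁ h₁ φ where
  F := expHom g₂ Y
  V := V
  w := w
  R := (exists_bound_expHom (g₁ := g₁) (g₂ := g₂) h₁ h₂ hY).choose
  cont_F := continuous_expHom hY
  F_zero := expHom_zero Y
  cont_w := cont_w
  deriv := deriv
  speed := speed
  bound := (exists_bound_expHom (g₁ := g₁) (g₂ := g₂) h₁ h₂ hY).choose_spec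

@[simp] theorem TestMap.ofExp_w (g₂ : RMetric (EV n) M) (h₁ : Npc (mt g₁)) (h₂ : Npc (mt g₂))
    (Y : UT g₀ → EV n)
    (hY : Continuous fun p : UT g₀ => (⟨p.pt, Y p⟩ : TangentBundle 𝓘(ℝ, EV n) M))
    (V : UT g₀ → EV n) (w : UT g₀ → ℝ) (cont_w : Continuous w)
    (deriv : ∀ p, HasDerivAt (fun t => chartAt (EV n) (expg (mt g₂) p.pt (Y p))
      (expg (mt g₂) (φ t p).pt (Y (φ t p)))) (V p) 0)
    (speed : ∀ p, (sys g₁ h₁).nrm (expg (mt g₂) p.pt (Y p)) (V p) ≤ w p) :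
    (TestMap.ofExp (φ := φ) g₂ h₁ h₂ Y hY V w cont_w deriv speed).w = w := rfl

end OfExp

end Vale.Agent.P207.H608
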