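import Vale.Agent.P207.Fin

/-!
# P207, H608: the stretch inequality with test maps

A test map sends the unit vector `p` to `exp (Y p)`, where `Y p` is a tangent vector at the base
point of `p` and `exp` is the exponential map of a metric `g₂` of nonpositive curvature.
-/

open scoped Manifold ContDiff ENNReal Topology unitInterval
open Bundle MeasureTheory Set Filter

noncomputable section

namespace Vale.Agent.P207.H608

open Vale.Agent.P255 (RMetric coefIn Gam Riem IsGeo Metric Npc ExpSys toMetric geo expg cc)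
open Path.Homotopic.Quotient

variable {n : ℕ} {M : Type} [TopologicalSpace M] [ChartedSpace (EV n) M]
  [IsManifold 𝓘(ℝ, EV n) ∞ M] [CompactSpace M] [T2Space M]

variable {g₀ g₁ g₂ : RMetric (EV n) M} {φ : ℝ → UT g₀ → UT g₀}

/-- The entropy of an invariant measure of the geodesic flow of `g₀` is at most `s ∫ w`, if the
`g₁`-length of the class of every orbit segment is at most the integral of `w` along the segment,
up to a constant. -/
theorem ksEntropy_le_of_len (hφ : IsGeoFlow g₀ φ) (h₀ : Npc (mt g₀)) (h₁ : Npc (mt g₁))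
    {s : ℝ} (hs : 0 ≤ s) (hG : GrowthLE (sys g₁ h₁) s)
    {ν : Measure (UT g₀)} [IsProbabilityMeasure ν] (hν : ∀ t, MeasurePreserving (φ t) ν ν)
    {w : UT g₀ → ℝ} (hw : Continuous w) {D : ℝ}
    (hlen : ∀ (p : UT g₀) (T : ℝ), 0 ≤ T →
      (sys g₁ h₁).len (seg hφ h₀ p T) ≤ D + ∫ t in (0 : ℝ)..T, w (φ t p)) :
    ksEntropy ν (φ 1) ≤ ENNReal.ofReal (s * ∫ p, w p ∂ν) := by
  classical
  have := compactSpace_UT g₀
  have := t2Space_UT g₀
  have := metrizableSpace_UT g₀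
  let : MetricSpace (UT g₀) := TopologicalSpace.metrizableSpaceMetric (UT g₀)
  set S₀ := sys g₀ h₀ with hS₀
  set S₁ := sys g₁ h₁ with hS₁
  have hcont1 : Continuous (φ 1) :=
    hφ.continuous.comp (by fun_prop : Continuous fun p : UT g₀ => ((1 : ℝ), p))
  obtain ⟨C, hC⟩ := hG
  obtain ⟨C', hC'0, hC'⟩ : ∃ C' : ℝ, 0 ≤ C' ∧ ∀ (x y : M) (R : ℝ), 0 ≤ R →
      {α : Cl x y | S₁.len α ≤ R}.Finite ∧
      ({α : Cl x y | S₁.len α ≤ R}.ncard : ℝ) ≤ C' * Real.exp (s * R) := by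
    refine ⟨|C|, abs_nonneg C, fun x y R hR => ⟨(hC x y R hR).1, (hC x y R hR).2.trans ?_⟩⟩
    exact mul_le_mul_of_nonneg_right (le_abs_self C) (Real.exp_pos _).le
  obtain ⟨K, hK0, hK⟩ := exists_len_le_mul hφ h₀ h₁
  -- the estimate for larger rates
  have main : ∀ s' : ℝ, s < s' → ksEntropy ν (φ 1) ≤
      ENNReal.ofReal (s' * ∫ p, w p ∂ν) := by
    intro s' hss'
    have hs' : 0 ≤ s' := hs.trans hss'.le
    have hF : Continuous fun p : UT g₀ => s' * ∫ t in (0 : ℝ)..1, w (φ t p) :=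
      continuous_const.mul (continuous_avg hφ.continuous hw)
    have hint : ∫ p, (s' * ∫ t in (0 : ℝ)..1, w (φ t p)) ∂ν =
        s' * ∫ p, w p ∂ν := by
      rw [integral_const_mul, integral_avg hφ.continuous hν hw]
    rw [← hint]
    apply ksEntropy_le_of_sum hcont1 (hν 1) hF
    intro ε hε
    obtain ⟨κ, hκ, hnear⟩ := exists_dist_lt S₀ (f := fun t (p : UT g₀) => (φ t p).pt)
      (fun t => (continuous_pt g₀).comp (hφ.continuous.comp
        (by fun_prop : Continuous fun p : UT g₀ => (t, p))))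
      (fun p q h => eq_of_pt_eq hφ h₀ h) hε
    obtain ⟨Fc, hFc⟩ := C1.exists_centers S₀ (half_pos hκ)
    choose c hc τ hτ using hFc
    refine ⟨Real.exp (s' * (D + K * κ)) * (((Fc.card : ℝ) ^ 2 * C') * Real.exp s *
      (1 - Real.exp (-(s' - s)))⁻¹), fun N E hE => ?_⟩
    set cell : UT g₀ → Σ p : M × M, Cl p.1 p.2 := fun x =>
      ⟨(c x.pt, c (φ N x).pt), ((τ x.pt).trans (seg hφ h₀ x N)).trans (τ (φ N x).pt).symm⟩
      with hcell
    -- the cells are injective on `E`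
    have hinj : Set.InjOn cell E := by
      intro x hx y hy hxy
      by_contra hne
      obtain ⟨i, hi, hdist⟩ := hE x hx y hy hne
      obtain ⟨α, β, hα, hβ, hαβ⟩ := cell_eq S₀ hxy
      have hα' : S₀.len α ≤ κ := by
        have h1 := hτ x.pt; have h2 := hτ y.pt; linarith
      have hβ' : S₀.len β ≤ κ := by
        have h1 := hτ (φ N x).pt; have h2 := hτ (φ N y).pt; linarith
      have h3 : dist (φ i x) (φ i y) < ε := by
        apply hnear
        intro t ht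
        have h4 := dist_le_of_endpoints hφ h₀ (Nat.cast_nonneg N) α β hα' hβ'
          (seg hφ h₀ x N) (seg hφ h₀ y N) (vec_seg hφ h₀ x N) (vec_seg hφ h₀ y N) hαβ
          (t := t + i) (by have := ht.1; positivity) (by
            have h5 : (i : ℝ) + 1 ≤ N := by exact_mod_cast hi
            have := ht.2
            linarith)
        rw [hφ.add, hφ.add] at h4
        exact h4
      rw [hφ.iterate_one, hφ.iterate_one] at hdist
      linarith
    -- the weight of a point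
    have hwt : ∀ x ∈ E, -∑ i ∈ Finset.range N, (s' * ∫ t in (0 : ℝ)..1,
        w (φ t ((φ 1)^[i] x))) ≤ s' * (D + K * κ) + -(s' * S₁.len (cell x).2) := by
      intro x _
      have h1 : ∑ i ∈ Finset.range N, (s' * ∫ t in (0 : ℝ)..1, w (φ t ((φ 1)^[i] x))) =
          s' * ∫ t in (0 : ℝ)..N, w (φ t x) := by
        rw [← Finset.mul_sum, ← sum_avg hφ.continuous hφ.add hw N x]
        simp_rw [hφ.iterate_one]
      rw [h1]
      have h2 := hlen x N (Nat.cast_nonneg N)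
      have h3 : S₁.len (cell x).2 ≤ S₁.len (seg hφ h₀ x N) + K * κ := by
        have h4 := S₁.len_trans ((τ x.pt).trans (seg hφ h₀ x N)) (τ (φ N x).pt).symm
        have h5 := S₁.len_trans (τ x.pt) (seg hφ h₀ x N)
        rw [S₁.len_symm] at h4
        have h6 : S₁.len (τ x.pt) ≤ K * (κ / 2) :=
          (hK _ _ _).trans (mul_le_mul_of_nonneg_left (hτ _).le hK0)
        have h7 : S₁.len (τ (φ N x).pt) ≤ K * (κ / 2) :=
          (hK _ _ _).trans (mul_le_mul_of_nonneg_left (hτ _).le hK0)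
        have h8 : S₁.len (cell x).2 = S₁.len (((τ x.pt).trans (seg hφ h₀ x N)).trans
          (τ (φ N x).pt).symm) := rfl
        rw [h8]
        linarith
      have h9 : S₁.len (cell x).2 ≤ D + (∫ t in (0 : ℝ)..N, w (φ t x)) + K * κ := by linarith
      nlinarith [mul_le_mul_of_nonneg_left h9 hs']
    calc ∑ x ∈ E, Real.exp (-∑ i ∈ Finset.range N, (s' * ∫ t in (0 : ℝ)..1,
          w (φ t ((φ 1)^[i] x))))
        ≤ ∑ x ∈ E, Real.exp (s' * (D + K * κ)) * Real.exp (-(s' * S₁.len (cell x).2)) := by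
          refine Finset.sum_le_sum fun x hx => ?_
          rw [← Real.exp_add]
          exact Real.exp_le_exp.2 (hwt x hx)
      _ = Real.exp (s' * (D + K * κ)) * ∑ x ∈ E, Real.exp (-(s' * S₁.len (cell x).2)) := by
          rw [Finset.mul_sum]
      _ ≤ _ := by
          apply mul_le_mul_of_nonneg_left _ (Real.exp_pos _).le
          apply sum_exp_le E (fun x => S₁.len (cell x).2) (fun x _ => S₁.len_nonneg _)
            (by positivity) hs' hss'
          intro R hR A hAE hA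
          exact card_cells_le hC' Fc cell A (hinj.mono hAE)
            (fun x _ => Finset.mem_product.2 ⟨hc _, hc _⟩) hR hA
  -- the limit
  have hlim : Tendsto (fun s' : ℝ => ENNReal.ofReal (s' * ∫ p, w p ∂ν)) (𝓝[>] s)
      (𝓝 (ENNReal.ofReal (s * ∫ p, w p ∂ν))) := by
    apply Tendsto.mono_left _ nhdsWithin_le_nhds
    exact (ENNReal.continuous_ofReal.comp (by fun_prop :
      Continuous fun s' : ℝ => s' * ∫ p, w p ∂ν)).tendsto s
  refine ge_of_tendsto hlim ?_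
  filter_upwards [self_mem_nhdsWithin] with s' hs'
  exact main s' hs'

/-- A test map for the geodesic flow `φ` of `g₀` and the lengths of `g₁`: the map `Ψ`, the
homotopy `F` from the projection to `Ψ` (with a bound `R` of the `g₁`-length of the classes of
its paths), the velocity `V` of `Ψ` along the flow and a continuous bound `w` of its
`g₁`-length. -/
structure TestMap (g₀ g₁ : RMetric (EV n) M) (h₁ : Npc (mt g₁)) (φ : ℝ → UT g₀ → UT g₀) where
  /-- the homotopy -/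
  F : I × UT g₀ → M
  /-- the velocity -/
  V : UT g₀ → EV n
  /-- the bound of the speed -/
  w : UT g₀ → ℝ
  /-- the bound of the homotopy -/
  R : ℝ
  cont_F : Continuous F
  F_zero : ∀ p, F (0, p) = p.pt
  cont_w : Continuous w
  deriv : ∀ p, HasDerivAt (fun t => chartAt (EV n) (F (1, p)) (F (1, φ t p))) (V p) 0
  speed : ∀ p, (sys g₁ h₁).nrm (F (1, p)) (V p) ≤ w p
  bound : ∀ p, (sys g₁ h₁).len (Path.Homotopic.Quotient.mk
    (⟨⟨fun s => F (s, p), cont_F.comp (by fun_prop)⟩, rfl, rfl⟩ : Path (F (0, p)) (F (1, p)))) ≤ R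

namespace TestMap

variable {h₁ : Npc (mt g₁)}

/-- the path of the homotopy at `p` -/
def arc (Θ : TestMap g₀ g₁ h₁ φ) (p : UT g₀) : Path (Θ.F (0, p)) (Θ.F (1, p)) :=
  ⟨⟨fun s => Θ.F (s, p), Θ.cont_F.comp (by fun_prop)⟩, rfl, rfl⟩

theorem len_arc (Θ : TestMap g₀ g₁ h₁ φ) (p : UT g₀) : (sys g₁ h₁).len (Path.Homotopic.Quotient.mk (Θ.arc p)) ≤ Θ.R :=
  Θ.bound p

/-- the length of an orbit segment is at most the length of its image, up to a constant -/
theorem len_seg_le (Θ : TestMap g₀ g₁ h₁ φ) (hφ : IsGeoFlow g₀ φ) (h₀ : Npc (mt g₀))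
    (p : UT g₀) {T : ℝ} (hT : 0 ≤ T) :
    (sys g₁ h₁).len (seg hφ h₀ p T) ≤ 2 * Θ.R + ∫ t in (0 : ℝ)..T, Θ.w (φ t p) := by
  set S₁ := sys g₁ h₁ with hS₁
  -- the homotopy
  let f0 : C(UT g₀, M) := ⟨fun q => Θ.F (0, q), Θ.cont_F.comp (by fun_prop)⟩
  let f1 : C(UT g₀, M) := ⟨fun q => Θ.F (1, q), Θ.cont_F.comp (by fun_prop)⟩
  let H : f0.Homotopy f1 := ⟨⟨Θ.F, Θ.cont_F⟩, fun q => rfl, fun q => rfl⟩
  -- the orbit
  let o : Path p (φ T p) := ⟨⟨fun τ => φ (τ * T) p,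
    hφ.continuous.comp (by fun_prop : Continuous fun τ : I => ((τ : ℝ) * T, p))⟩,
    by simp [hφ.zero], by simp⟩
  have hsq := Path.Homotopic.map_trans_evalAt H o
  have e1 : Path.Homotopic.Quotient.mk ((o.map f0.continuous).trans (Θ.arc (φ T p))) =
      Path.Homotopic.Quotient.mk ((Θ.arc p).trans (o.map f1.continuous)) := Path.Homotopic.Quotient.eq.2 hsq
  rw [mk_trans, mk_trans] at e1
  -- the base orbit is the geodesic segment
  have hpt0 : p.pt = Θ.F (0, p) := (Θ.F_zero p).symm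
  have hpt1 : (φ T p).pt = Θ.F (0, φ T p) := (Θ.F_zero _).symm
  have e2 : S₁.len (Path.Homotopic.Quotient.mk (o.map f0.continuous)) = S₁.len (seg hφ h₀ p T) := by
    have key : ∀ (x y : M) (hx : p.pt = x) (hy : (φ T p).pt = y) (γ : Path x y),
        (∀ τ, γ τ = (φ (τ * T) p).pt) → S₁.len (Path.Homotopic.Quotient.mk γ) = S₁.len (seg hφ h₀ p T) := by
      intro x y hx hy γ hγ
      subst hx hy
      congr 2
      ext τ
      rw [hγ]
      have h2 : (φ (τ * T) p).pt = (sys g₀ h₀).e p.pt (((τ : ℝ) * T) • (p.vec : EV n)) :=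
        hφ.pt_eq_e h₀ _ _
      rw [h2, ← smul_smul]
      rfl
    exact key _ _ hpt0 hpt1 _ fun τ => Θ.F_zero _
  -- the image of the orbit
  have e3 : S₁.len (Path.Homotopic.Quotient.mk (o.map f1.continuous)) ≤ ∫ t in (0 : ℝ)..T, Θ.w (φ t p) := by
    have hc : Continuous fun t => Θ.F (1, φ t p) :=
      Θ.cont_F.comp (continuous_const.prodMk (hφ.continuous_left p))
    have hf : Continuous fun t => Θ.w (φ t p) := Θ.cont_w.comp (hφ.continuous_left p)
    refine G2.len_mk_le S₁ hc hf hT _ (fun τ => rfl) ?_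
    intro s hs0 hsT r hr
    have hd : HasDerivAt (cc (E := EV n) (fun t => Θ.F (1, φ t p)) (Θ.F (1, φ s p)))
        (Θ.V (φ s p)) s := by
      have h1 := Θ.deriv (φ s p)
      have h2 : HasDerivAt (fun t : ℝ => t - s) 1 s := (hasDerivAt_id s).sub_const s
      have h3 : HasDerivAt (fun t => chartAt (EV n) (Θ.F (1, φ s p)) (Θ.F (1, φ t (φ s p))))
          (Θ.V (φ s p)) (s - s) := by rw [sub_self]; exact h1
      have h4 := HasDerivAt.scomp (h := fun t : ℝ => t - s) s h3 h2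
      rw [one_smul] at h4
      refine h4.congr_of_eventuallyEq (Eventually.of_forall fun t => ?_)
      simp only [cc, Function.comp]
      rw [← hφ.add, sub_add_cancel]
    exact G2.local_len S₁ (P255.isExp_expg (mt g₁)) (sys_e g₁ h₁) hc hd
      (lt_of_le_of_lt (Θ.speed _) hr)
  -- the triangle inequality
  have e4 : Path.Homotopic.Quotient.mk (o.map f0.continuous) =
      ((Path.Homotopic.Quotient.mk (Θ.arc p)).trans (Path.Homotopic.Quotient.mk (o.map f1.continuous))).trans (Path.Homotopic.Quotient.mk (Θ.arc (φ T p))).symm := by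
    rw [← e1]
    rw [trans_assoc, Path.Homotopic.Quotient.trans_symm, Path.Homotopic.Quotient.trans_refl]
  have e5 := S₁.len_trans ((Path.Homotopic.Quotient.mk (Θ.arc p)).trans (Path.Homotopic.Quotient.mk (o.map f1.continuous)))
    (Path.Homotopic.Quotient.mk (Θ.arc (φ T p))).symm
  have e6 := S₁.len_trans (Path.Homotopic.Quotient.mk (Θ.arc p)) (Path.Homotopic.Quotient.mk (o.map f1.continuous))
  rw [S₁.len_symm] at e5
  have e7 := Θ.len_arc p
  have e8 := Θ.len_arc (φ T p)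
  rw [← e2, e4]
  linarith

/-- the integral of the speed bound is nonnegative -/
theorem integral_nonneg (Θ : TestMap g₀ g₁ h₁ φ) (ν : Measure (UT g₀)) : 0 ≤ ∫ p, Θ.w p ∂ν :=
  MeasureTheory.integral_nonneg fun p => ((sys g₁ h₁).nrm_nonneg _ _).trans (Θ.speed p)

/-- the stretch inequality with a test map, in terms of the growth rate -/
theorem ksEntropy_le (Θ : TestMap g₀ g₁ h₁ φ) (hφ : IsGeoFlow g₀ φ) (h₀ : Npc (mt g₀))
    {s : ℝ} (hs : 0 ≤ s) (hG : GrowthLE (sys g₁ h₁) s)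
    {ν : Measure (UT g₀)} [IsProbabilityMeasure ν] (hν : ∀ t, MeasurePreserving (φ t) ν ν) :
    ksEntropy ν (φ 1) ≤ ENNReal.ofReal (s * ∫ p, Θ.w p ∂ν) :=
  ksEntropy_le_of_len hφ h₀ h₁ hs hG hν Θ.cont_w fun p _ hT => Θ.len_seg_le hφ h₀ p hT

/-- the stretch inequality with a test map, in terms of the topological entropy -/
theorem stretch [ConnectedSpace M] {φ₁ : ℝ → UT g₁ → UT g₁} (Θ : TestMap g₀ g₁ h₁ φ)
    (hφ : IsGeoFlow g₀ φ) (hφ₁ : IsGeoFlow g₁ φ₁) (h₀ : Npc (mt g₀)) {ν : Measure (UT g₀)}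
    [IsProbabilityMeasure ν] (hν : ∀ t, MeasurePreserving (φ t) ν ν) {A : ℝ} (hA : 0 < A)
    (hA' : ∫ p, Θ.w p ∂ν ≤ A) :
    ksEntropy ν (φ 1) ≤ ENNReal.ofReal A * topEntropy (φ₁ 1) := by
  apply ofReal_le_mul_of_forall hA
  intro s hs hlt
  refine (Θ.ksEntropy_le hφ h₀ hs.le (growthLE_of_topEntropy hφ₁ h₁ hs hlt) hν).trans ?_
  exact ENNReal.ofReal_le_ofReal (mul_le_mul_of_nonneg_left hA' hs.le)

end TestMap

section TwoSided

variable [MeasurableSpace M] [BorelSpace M]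

/-- One direction: the Liouville entropy of `g₀` is at most `∫ w` times the topological entropy
of `g₁`. -/
theorem one_sided [ConnectedSpace M] (hn : 2 ≤ n) (hN₀ : NegCurvature g₀) (h₁ : Npc (mt g₁))
    {φ₁ : ℝ → UT g₁ → UT g₁} {μ₀ : Measure M} {m₀ : Measure (UT g₀)}
    (hφ : IsGeoFlow g₀ φ) (hφ₁ : IsGeoFlow g₁ φ₁) (hμ₀ : IsRiemVol g₀ μ₀)
    (hm₀ : IsLiouville g₀ μ₀ m₀) (Θ : TestMap g₀ g₁ h₁ φ) {A : ℝ} (hA : 0 < A)
    (hA' : ∫ p, Θ.w p ∂m₀ ≤ A) :
    ksEntropy m₀ (φ 1) ≤ ENNReal.ofReal A * topEntropy (φ₁ 1) := by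
  have := hm₀.1
  exact Θ.stretch hφ hφ₁ (npc_of_neg hN₀)
    (fun t => hm₀.measurePreserving (by omega) hφ hμ₀ t) hA hA'

/-- If the Liouville measure has maximal entropy for `g₀` and for `g₁`, then the product of the
average stretches of any two test maps is at least one. -/
theorem one_le_of_eq [ConnectedSpace M] (hn : 2 ≤ n) (hN₀ : NegCurvature g₀)
    (hN₁ : NegCurvature g₁) {φ₁ : ℝ → UT g₁ → UT g₁} {μ₀ μ₁ : Measure M}
    {m₀ : Measure (UT g₀)} {m₁ : Measure (UT g₁)}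
    (hφ : IsGeoFlow g₀ φ) (hφ₁ : IsGeoFlow g₁ φ₁)
    (hμ₀ : IsRiemVol g₀ μ₀) (hμ₁ : IsRiemVol g₁ μ₁)
    (hm₀ : IsLiouville g₀ μ₀ m₀) (hm₁ : IsLiouville g₁ μ₁ m₁)
    (e₀ : ksEntropy m₀ (φ 1) = topEntropy (φ 1))
    (e₁ : ksEntropy m₁ (φ₁ 1) = topEntropy (φ₁ 1))
    (Θ₀ : TestMap g₀ g₁ (npc_of_neg hN₁) φ) (Θ₁ : TestMap g₁ g₀ (npc_of_neg hN₀) φ₁) :
    1 ≤ (∫ p, Θ₀.w p ∂m₀) * ∫ p, Θ₁.w p ∂m₁ := by
  have := hm₀.1
  have := hm₁.1
  have hA₀ := Θ₀.integral_nonneg m₀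
  have hA₁ := Θ₁.integral_nonneg m₁
  have hHpos : 0 < topEntropy (φ 1) := topEntropy_pos hn hφ hN₀
  have hHtop : topEntropy (φ 1) ≠ ⊤ := by
    rw [← e₀]
    exact ksEntropy_ne_top hφ (npc_of_neg hN₀) fun t => hm₀.measurePreserving (by omega) hφ hμ₀ t
  -- slightly larger constants
  have key : ∀ ε : ℝ, 0 < ε →
      1 ≤ ((∫ p, Θ₀.w p ∂m₀) + ε) * ((∫ p, Θ₁.w p ∂m₁) + ε) := by
    intro ε hε
    have hp₀ : 0 < (∫ p, Θ₀.w p ∂m₀) + ε := by positivity
    have hp₁ : 0 < (∫ p, Θ₁.w p ∂m₁) + ε := by positivity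
    have hS₀ := one_sided hn hN₀ (npc_of_neg hN₁) hφ hφ₁ hμ₀ hm₀ Θ₀ hp₀ (by linarith)
    have hS₁ := one_sided hn hN₁ (npc_of_neg hN₀) hφ₁ hφ hμ₁ hm₁ Θ₁ hp₁ (by linarith)
    rw [← e₁, e₀] at hS₀
    have h1 : topEntropy (φ 1) ≤ ENNReal.ofReal ((∫ p, Θ₀.w p ∂m₀) + ε) *
        (ENNReal.ofReal ((∫ p, Θ₁.w p ∂m₁) + ε) * topEntropy (φ 1)) :=
      hS₀.trans (mul_le_mul_right hS₁ _)
    rw [← mul_assoc, ← ENNReal.ofReal_mul hp₀.le] at h1
    have h2 : (1 : ℝ≥0∞) ≤
        ENNReal.ofReal (((∫ p, Θ₀.w p ∂m₀) + ε) * ((∫ p, Θ₁.w p ∂m₁) + ε)) := by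
      by_contra h3
      push Not at h3
      have h4 := ENNReal.mul_lt_mul_left hHpos.ne' hHtop h3
      rw [one_mul] at h4
      exact absurd h1 (not_le.2 h4)
    rwa [ENNReal.one_le_ofReal] at h2
  have hlim : Tendsto (fun ε : ℝ => ((∫ p, Θ₀.w p ∂m₀) + ε) * ((∫ p, Θ₁.w p ∂m₁) + ε))
      (𝓝[>] 0) (𝓝 ((∫ p, Θ₀.w p ∂m₀) * ∫ p, Θ₁.w p ∂m₁)) := by
    have h1 : Continuous (fun ε : ℝ => ((∫ p, Θ₀.w p ∂m₀) + ε) * ((∫ p, Θ₁.w p ∂m₁) + ε)) := by
      fun_prop
    have h2 := h1.tendsto 0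
    rw [add_zero, add_zero] at h2
    exact h2.mono_left nhdsWithin_le_nhds
  refine ge_of_tendsto hlim ?_
  filter_upwards [self_mem_nhdsWithin] with ε hε
  exact key ε hε

end TwoSided

end Vale.Agent.P207.H608
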