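import Vale.Agent.P207.Q.FrSys
import Vale.Agent.P207.Q.H892.Meas
import Vale.Agent.P207.Q.H916.Fr7

/-!
# P207, H608: velocities of curves of orthonormal frames, and lifts of curves of unit vectors
-/

open scoped Manifold ContDiff ENNReal Topology
open Bundle MeasureTheory Set Filter

noncomputable section

set_option maxSynthPendingDepth 3
set_option linter.unusedSectionVars false

namespace Vale.Agent.P207.H608

open Vale.Agent.P207.Q
open Vale.Agent.P255 (RMetric coefIn Gam Riem IsGeo Metric Npc ExpSys toMetric geo expg cc trans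
  IsGeodesic coefL chris chrisB IsMetricOn covD)

variable {n : ℕ}

/-! ### components of the tangent vectors of the bundle of frames, in a chart -/

section Coord

variable {G : EV n → EV n →L[ℝ] EV n →L[ℝ] ℝ} {U : Set (EV n)}

/-- the tangent vector with horizontal components `ξ` and vertical components `B`:
`u' = ∑ ξᵢ eᵢ`, `D e_j = ∑ᵢ B_ij eᵢ` -/
def tvec (G : EV n → EV n →L[ℝ] EV n →L[ℝ] ℝ) (ξ : Fin n → ℝ) (B : Matrix (Fin n) (Fin n) ℝ)
    (y : St (Fin n) n) : St (Fin n) n := hF G ξ y + Brk.ver B y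

/-- the horizontal components of the tangent vector `w` at `y` -/
def cH (G : EV n → EV n →L[ℝ] EV n →L[ℝ] ℝ) (y w : St (Fin n) n) (i : Fin n) : ℝ :=
  G y.1 w.1 (y.2 i)

/-- the vertical components of the tangent vector `w` at `y` -/
def cV (G : EV n → EV n →L[ℝ] EV n →L[ℝ] ℝ) (y w : St (Fin n) n) : Matrix (Fin n) (Fin n) ℝ :=
  Matrix.of fun i j => G y.1 (w.2 j + chris G y.1 w.1 (y.2 j)) (y.2 i)

theorem tvec_fst (ξ : Fin n → ℝ) (B : Matrix (Fin n) (Fin n) ℝ) (y : St (Fin n) n) :
    (tvec G ξ B y).1 = ∑ i, ξ i • y.2 i := by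
  simp [tvec, hF, Brk.ver]

theorem tvec_snd (ξ : Fin n → ℝ) (B : Matrix (Fin n) (Fin n) ℝ) (y : St (Fin n) n) (j : Fin n) :
    (tvec G ξ B y).2 j = - chris G y.1 (∑ i, ξ i • y.2 i) (y.2 j) + ∑ i, B i j • y.2 i := by
  simp [tvec, hF, Brk.ver]

theorem eq_tvec (h : IsMetricOn G U) {y : St (Fin n) n} (hy : y.1 ∈ U) (ho : Orth (G y.1) y.2)
    (w : St (Fin n) n) : w = tvec G (cH G y w) (cV G y w) y := by
  have hcard : Fintype.card (Fin n) = Module.finrank ℝ (EV n) := by simp
  have h1 : ∑ i, cH G y w i • y.2 i = w.1 := Brk.sum_orth h hy hcard ho w.1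
  refine Prod.ext ?_ ?_
  · rw [tvec_fst, h1]
  · funext j
    rw [tvec_snd, h1]
    have h2 := Brk.sum_orth h hy hcard ho (w.2 j + chris G y.1 w.1 (y.2 j))
    have h3 : ∑ i, cV G y w i j • y.2 i = w.2 j + chris G y.1 w.1 (y.2 j) := h2
    rw [h3]
    abel

theorem cH_tvec {y : St (Fin n) n} (ho : Orth (G y.1) y.2) (ξ : Fin n → ℝ)
    (B : Matrix (Fin n) (Fin n) ℝ) : cH G y (tvec G ξ B y) = ξ := by
  funext i
  unfold cH
  rw [tvec_fst, map_sum]
  have h1 : ∀ k, (G y.1 (ξ k • y.2 k)) (y.2 i) = ξ k * (if k = i then 1 else 0) := by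
    intro k
    rw [map_smul, smul_apply, smul_eq_mul, ho k i]
  rw [sum_apply]
  simp only [h1]
  simp

theorem cV_tvec {y : St (Fin n) n} (ho : Orth (G y.1) y.2) (ξ : Fin n → ℝ)
    (B : Matrix (Fin n) (Fin n) ℝ) : cV G y (tvec G ξ B y) = B := by
  ext i j
  unfold cV
  rw [Matrix.of_apply, tvec_fst, tvec_snd]
  have h0 : - chris G y.1 (∑ i, ξ i • y.2 i) (y.2 j) + ∑ i, B i j • y.2 i +
      chris G y.1 (∑ i, ξ i • y.2 i) (y.2 j) = ∑ i, B i j • y.2 i := by abel
  rw [h0, map_sum, sum_apply]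
  have h1 : ∀ k, (G y.1 (B k j • y.2 k)) (y.2 i) = B k j * (if k = i then 1 else 0) := by
    intro k
    rw [map_smul, smul_apply, smul_eq_mul, ho k i]
  simp only [h1]
  simp

/-- the vertical components of the velocity of a curve of orthonormal frames are skew -/
theorem cV_skew (h : IsMetricOn G U) {y : ℝ → St (Fin n) n} {w : St (Fin n) n} {t : ℝ}
    (hy : (y t).1 ∈ U) (ho : ∀ᶠ r in 𝓝 t, Orth (G (y r).1) (y r).2) (hd : HasDerivAt y w t) :
    (cV G (y t) w).transpose = - cV G (y t) w := by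
  ext i j
  have h1 : HasDerivAt (fun r => (y r).1) w.1 t := hd.fst
  have h2 : ∀ j, HasDerivAt (fun r => (y r).2 j) (w.2 j) t := fun j => (hasDerivAt_pi.1 hd.snd) j
  have h3 := h.hasDerivAt_inner hy h1.differentiableAt (h2 i).differentiableAt
    (h2 j).differentiableAt
  have h4 : HasDerivAt (fun r => G (y r).1 ((y r).2 i) ((y r).2 j)) 0 t := by
    refine (hasDerivAt_const t (if i = j then (1 : ℝ) else 0)).congr_of_eventuallyEq ?_
    filter_upwards [ho] with r hr
    exact hr i j
  have h5 := h3.unique h4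
  simp only [covD, h1.deriv, (h2 i).deriv, (h2 j).deriv] at h5
  rw [h.symm _ hy ((y t).2 i)] at h5
  simp only [Matrix.transpose_apply, Matrix.neg_apply, cV, Matrix.of_apply]
  linarith

/-- the vertical field is linear in the matrix -/
theorem ver_add (A B : Matrix (Fin n) (Fin n) ℝ) (y : St (Fin n) n) :
    Brk.ver (A + B) y = Brk.ver A y + Brk.ver B y := by
  refine Prod.ext (by simp [Brk.ver]) ?_
  funext j
  simp [Brk.ver, add_smul, Finset.sum_add_distrib]

theorem ver_smul (c : ℝ) (A : Matrix (Fin n) (Fin n) ℝ) (y : St (Fin n) n) :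
    Brk.ver (c • A) y = c • Brk.ver A y := by
  refine Prod.ext (by simp [Brk.ver]) ?_
  funext j
  simp [Brk.ver, Finset.smul_sum, smul_smul]

theorem ver_sum {κ : Type} (s : Finset κ) (A : κ → Matrix (Fin n) (Fin n) ℝ) (y : St (Fin n) n) :
    Brk.ver (∑ k ∈ s, A k) y = ∑ k ∈ s, Brk.ver (A k) y := by
  classical
  induction s using Finset.induction_on with
  | empty =>
    simp only [Finset.sum_empty]
    refine Prod.ext (by simp [Brk.ver]) ?_
    funext j
    simp [Brk.ver]
  | insert a s ha ih =>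
    rw [Finset.sum_insert ha, Finset.sum_insert ha, ver_add, ih]

theorem hF_sum (G : EV n → EV n →L[ℝ] EV n →L[ℝ] ℝ) (ξ : Fin n → ℝ) (y : St (Fin n) n) :
    hF G ξ y = ∑ i, ξ i • hF G (Pi.single i 1) y := by
  refine Prod.ext ?_ ?_
  · rw [Prod.fst_sum]
    change ∑ i, ξ i • y.2 i = _
    refine Finset.sum_congr rfl fun i _ => ?_
    simp [hF, Pi.single_apply]
  · funext j
    rw [Prod.snd_sum, Finset.sum_apply]
    have h1 : ∀ i, (ξ i • hF G (Pi.single i 1) y).2 j = - (ξ i • chris G y.1 (y.2 i) (y.2 j)) := by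
      intro i
      simp [hF, Pi.single_apply]
    simp only [h1]
    change - chris G y.1 (∑ i, ξ i • y.2 i) (y.2 j) = _
    rw [← P255.chrisB_apply, map_sum, sum_apply, Finset.sum_neg_distrib]
    congr 1
    refine Finset.sum_congr rfl fun i _ => ?_
    rw [map_smul, smul_apply, P255.chrisB_apply]

/-- a skew matrix in terms of the generators of the rotations -/
theorem skew_eq_sum {B : Matrix (Fin n) (Fin n) ℝ} (hB : B.transpose = -B) :
    B = ∑ i, ∑ j, (B i j / 2) • Brk.rot (ι := Fin n) i j := by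
  ext k l
  simp only [Matrix.sum_apply, Matrix.smul_apply, Brk.rot, Matrix.sub_apply, smul_eq_mul,
    Matrix.single_apply]
  have h1 : B l k = - B k l := congrFun (congrFun hB k) l
  have h2 : ∀ i j : Fin n, B i j / 2 * ((if i = k ∧ j = l then (1 : ℝ) else 0) -
      if j = k ∧ i = l then (1 : ℝ) else 0) =
      (if i = k then (if j = l then B i j / 2 else 0) else 0) -
        (if i = l then (if j = k then B i j / 2 else 0) else 0) := by
    intro i j
    rw [ite_and, ite_and (j = k)]
    split_ifs <;> ring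
  simp only [h2, Finset.sum_sub_distrib]
  simp only [Finset.sum_ite_eq', Finset.sum_ite_irrel, Finset.sum_const_zero, Finset.mem_univ,
    if_true]
  rw [h1]
  ring

end Coord

/-! ### derivatives of smooth functions along curves of frames -/

variable {M : Type} [TopologicalSpace M] [ChartedSpace (EV n) M] [IsManifold 𝓘(ℝ, EV n) ∞ M]
  {g : RMetric (EV n) M}

section SmF

variable [NeZero n] {V : Type} [NormedAddCommGroup V] [NormedSpace ℝ V]

theorem eventually_source {F : ℝ → Fr g} {t : ℝ} (hc : ContinuousAt F t) {a : M}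
    (ha : (F t).pt ∈ (chartAt (EV n) a).source) :
    ∀ᶠ r in 𝓝 t, (F r).pt ∈ (chartAt (EV n) a).source :=
  (ContinuousAt.comp (g := fun f : Fr g => f.pt) Fr.continuous_pt.continuousAt hc).preimage_mem_nhds
    ((chartAt (EV n) a).open_source.mem_nhds ha)

/-- the derivative of a smooth function along a curve of frames -/
theorem hasDerivAt_smF {f : Fr g → V} (hf : SmF f) {F : ℝ → Fr g} {t : ℝ}
    (hc : ContinuousAt F t) {a : M} (ha : (F t).pt ∈ (chartAt (EV n) a).source)
    {w : St (Fin n) n} (hF : HasDerivAt (fun r => chF a (F r).1) w t) :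
    HasDerivAt (fun r => f (F r)) (fderiv ℝ (rd f a) (chF a (F t).1) w) t := by
  have h1 : DifferentiableAt ℝ (rd f a) (chF a (F t).1) :=
    (hf.contDiffAt (chF_mem_dom ha)).differentiableAt (by simp)
  have h2 := h1.hasFDerivAt.comp_hasDerivAt t hF
  refine h2.congr_of_eventuallyEq ?_
  filter_upwards [eventually_source hc ha] with r hr
  exact (rd_chF f hr).symm

variable [CompactSpace M] [T2Space M]

/-- the derivative in the direction with horizontal components `ξ` and vertical components `B` -/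
theorem fderiv_tvec {f : Fr g → V} (hf : SmF f) {a : M} {p : Fr g}
    (ha : p.pt ∈ (chartAt (EV n) a).source) (ξ : Fin n → ℝ) {B : Matrix (Fin n) (Fin n) ℝ}
    (hB : B.transpose = -B) :
    fderiv ℝ (rd f a) (chF a p.1) (tvec ((mt g).coef a) ξ B (chF a p.1)) =
      ∑ i, ξ i • dZ (horZ g (Pi.single i 1)) f p +
        ∑ i, ∑ j, (B i j / 2) • dZ (verZ g (Brk.rot i j)) f p := by
  have : Nonempty (Fr g) := ⟨p⟩
  unfold tvec
  rw [map_add]
  congr 1
  · rw [hF_sum, map_sum]
    refine Finset.sum_congr rfl fun i _ => ?_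
    rw [map_smul, (isHorFlow_flow g (Pi.single i 1)).isFlow.dZ_eq hf ha]
    rfl
  · conv_lhs => rw [skew_eq_sum hB]
    rw [ver_sum, map_sum]
    refine Finset.sum_congr rfl fun i _ => ?_
    rw [ver_sum, map_sum]
    refine Finset.sum_congr rfl fun j _ => ?_
    rw [ver_smul, map_smul]
    by_cases hij : i = j
    · subst hij
      have h1 : Brk.rot (ι := Fin n) i i = 0 := by simp [Brk.rot]
      have h2 : ∀ y : St (Fin n) n, Brk.ver (0 : Matrix (Fin n) (Fin n) ℝ) y = 0 := by
        intro y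
        have := ver_smul (0 : ℝ) (0 : Matrix (Fin n) (Fin n) ℝ) y
        simpa using this
      rw [h1, h2, map_zero]
      unfold dZ
      rw [verZ_Z, h2, map_zero]
    · rw [fderiv_ver_eq (isGen_rot hij) hf ha]

end SmF

/-! ### lifts -/

section Lift

variable [NeZero n] [CompactSpace M] [T2Space M]

theorem gs_zero_of_unit {B : EV n →L[ℝ] EV n →L[ℝ] ℝ} {w : ℕ → EV n} (h : B (w 0) (w 0) = 1) :
    gs B w 0 = w 0 := by
  have h1 : gu B w 0 = w 0 := by simp [gu]
  rw [gs_eq, h1, h, Real.sqrt_one, inv_one, one_smul]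

/-- curves of unit vectors lift to curves of frames -/
theorem exists_lift {c : ℝ → UT g} (hc : ContinuousAt c 0) {f₀ : Fr g} (hf₀ : f₀.ut 0 = c 0)
    {a : M} (ha : f₀.pt ∈ (chartAt (EV n) a).source) {w : EV n × EV n}
    (hd : HasDerivAt (fun t => chT a (c t).1) w 0) :
    ∃ F : ℝ → Fr g, F 0 = f₀ ∧ (∀ᶠ t in 𝓝 0, (F t).ut 0 = c t) ∧ ContinuousAt F 0 ∧
      ∃ w' : St (Fin n) n, HasDerivAt (fun t => chF a (F t).1) w' 0 ∧ w'.1 = w.1 ∧
        w'.2 0 = w.2 := by
  classical
  have : Nonempty (Fr g) := ⟨f₀⟩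
  have hm := (mt g).isMetricOn a
  -- the state of the unit vector
  have hc0 : chT a (c 0).1 = ((chF a f₀.1).1, (chF a f₀.1).2 0) := by
    rw [← hf₀]
    exact chT_vec a f₀.1 0
  have hsrc : ∀ᶠ t in 𝓝 (0 : ℝ), (c t).pt ∈ (chartAt (EV n) a).source := by
    have h1 : ContinuousAt (fun t => (c t).pt) 0 :=
      ContinuousAt.comp (g := fun p : UT g => p.pt) (continuous_pt g).continuousAt hc
    refine h1.preimage_mem_nhds ((chartAt (EV n) a).open_source.mem_nhds ?_)
    have h2 : (c 0).pt = f₀.pt := by rw [← hf₀]; rfl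
    change (c 0).pt ∈ _
    rw [h2]; exact ha
  -- the family before Gram-Schmidt
  let Y : ℝ → St (Fin n) n := fun t =>
    ((chT a (c t).1).1, fun j => if j = 0 then (chT a (c t).1).2 else (chF a f₀.1).2 j)
  have hY0 : Y 0 = chF a f₀.1 := by
    refine Prod.ext ?_ ?_
    · change (chT a (c 0).1).1 = _
      rw [hc0]
    · funext j
      change (if j = 0 then (chT a (c 0).1).2 else (chF a f₀.1).2 j) = _
      by_cases hj : j = 0
      · rw [if_pos hj, hc0, hj]
      · rw [if_neg hj]
  let w₁ : St (Fin n) n := (w.1, fun j => if j = 0 then w.2 else 0)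
  have hYd : HasDerivAt Y w₁ 0 := by
    refine HasDerivAt.prodMk hd.fst ?_
    rw [hasDerivAt_pi]
    intro j
    by_cases hj : j = 0
    · simp only [hj, if_true]
      exact hd.snd
    · simp only [hj, if_false]
      exact hasDerivAt_const _ _
  have hYz : ∀ t, (Y t).2 0 = (chT a (c t).1).2 := by
    intro t
    simp only [Y, if_true]
  have hdom0 : Y 0 ∈ dom g a := by
    rw [hY0]; exact chF_mem_dom ha
  have hdom : ∀ᶠ t in 𝓝 (0 : ℝ), Y t ∈ dom g a :=
    hYd.continuousAt.preimage_mem_nhds ((isOpen_dom a).mem_nhds hdom0)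
  -- the lift
  let F : ℝ → Fr g := fun t => invF g a (gsSt ((mt g).coef a) (Y t))
  have hval : ∀ t, Y t ∈ dom g a → (F t).1 = chFs a (gsSt ((mt g).coef a) (Y t)) := by
    intro t ht
    exact invF_val g a _ (show (gsSt ((mt g).coef a) (Y t)).1 ∈ _ from ht.1) (orth_gsSt hm ht)
  have hchF : ∀ t, Y t ∈ dom g a → chF a (F t).1 = gsSt ((mt g).coef a) (Y t) := by
    intro t ht
    exact chF_invF g a _ (show (gsSt ((mt g).coef a) (Y t)).1 ∈ _ from ht.1) (orth_gsSt hm ht)
  have hF0 : F 0 = f₀ := by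
    change invF g a (gsSt ((mt g).coef a) (Y 0)) = f₀
    rw [hY0]
    exact retr_chF a f₀ ha
  have hderiv : HasDerivAt (fun t => chF a (F t).1)
      (fderiv ℝ (gsSt ((mt g).coef a)) (Y 0) w₁) 0 := by
    have h1 := (contDiffAt_gsSt hm hdom0).differentiableAt (by simp)
    have h2 := h1.hasFDerivAt.comp_hasDerivAt 0 hYd
    refine h2.congr_of_eventuallyEq ?_
    filter_upwards [hdom] with t ht
    exact hchF t ht
  have hzero : ∀ᶠ t in 𝓝 (0 : ℝ), (gsSt ((mt g).coef a) (Y t)).2 0 = (Y t).2 0 := by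
    filter_upwards [hsrc] with t ht
    have h1 : extz (Y t).2 0 = (Y t).2 0 := by
      unfold extz
      rw [dif_pos (Nat.pos_of_ne_zero (NeZero.ne n))]
      rfl
    change gs ((mt g).coef a (Y t).1) (extz (Y t).2) 0 = _
    rw [gs_zero_of_unit, h1]
    rw [h1, hYz]
    exact (inner_chT g a ht).trans (c t).2
  refine ⟨F, hF0, ?_, ?_, _, hderiv, ?_, ?_⟩
  · filter_upwards [hdom, hzero, hsrc] with t ht hz hs
    apply Subtype.ext
    change (F t).1.vec 0 = (c t).1
    rw [hval t ht, vec_chFs, hz]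
    have h1 : ((gsSt ((mt g).coef a) (Y t)).1, (Y t).2 0) = chT a (c t).1 :=
      Prod.ext rfl (hYz t)
    rw [h1]
    exact chTs_chT a hs
  · refine Topology.IsInducing.subtypeVal.continuousAt_iff.2 ?_
    have h1 : ContinuousAt (fun t => chFs (M := M) a (gsSt ((mt g).coef a) (Y t))) 0 := by
      refine ContinuousAt.comp (g := chFs a) (continuousAt_chFs a
        (show (gsSt ((mt g).coef a) (Y 0)).1 ∈ _ from hdom0.1)) ?_
      exact ContinuousAt.comp (contDiffAt_gsSt hm hdom0).continuousAt hYd.continuousAt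
    refine h1.congr ?_
    filter_upwards [hdom] with t ht
    exact (hval t ht).symm
  · have h0 : HasDerivAt (fun t => (Y t).1) w.1 0 := hYd.fst
    have h1 : HasDerivAt (fun t => (chF a (F t).1).1) w.1 0 := by
      refine h0.congr_of_eventuallyEq ?_
      filter_upwards [hdom] with t ht
      rw [hchF t ht]
      rfl
    have h2 : HasDerivAt (fun t => (chF a (F t).1).1)
      (fderiv ℝ (gsSt ((mt g).coef a)) (Y 0) w₁).1 0 := hderiv.fst
    exact h2.unique h1
  · have h0 : HasDerivAt (fun t => (chT a (c t).1).2) w.2 0 := hd.snd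
    have h1 : HasDerivAt (fun t => (chF a (F t).1).2 0) w.2 0 := by
      refine h0.congr_of_eventuallyEq ?_
      filter_upwards [hdom, hzero] with t ht hz
      rw [hchF t ht, hz, hYz]
    exact ((hasDerivAt_pi.1 hderiv.snd) 0).unique h1

end Lift

end Vale.Agent.P207.H608
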