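import Vale.Agent.P207.H608.DirB1

/-!
# P207, H608: admissible test fields
-/

open scoped Manifold ContDiff ENNReal Topology
open Bundle MeasureTheory Set Filter

noncomputable section

set_option maxSynthPendingDepth 3
set_option linter.unusedSectionVars false

namespace Vale.Agent.P207.H608

open Vale.Agent.P207.Q
open Vale.Agent.P255 (RMetric coefIn Gam Riem IsGeo Metric Npc ExpSys toMetric geo expg cc trans
  IsGeodesic coefL chris chrisB IsMetricOn covD)

variable {n : ℕ} {M : Type} [TopologicalSpace M] [ChartedSpace (EV n) M]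
  [IsManifold 𝓘(ℝ, EV n) ∞ M] [NeZero n] [CompactSpace M] [T2Space M] {g₀ g : RMetric (EV n) M}

/-- Admissible test fields: the components `yᵢ` (in the frames of `g₀`) of a smooth vector field
along the projection `UT g₀ → M`, orthogonal to the unit vector. -/
structure Adm (y : Fin n → Fr g₀ → ℝ) : Prop where
  smooth : ∀ i, SmF (y i)
  zero : ∀ f, y 0 f = 0
  equiv : ∀ A ∈ H892.Stab n, ∀ f i, y i (Fr.rot A f) = ∑ j, A.1 j i * y j f

/-- the vector with components `y` in the frame `f` -/
def fvec (y : Fin n → Fr g₀ → ℝ) (f : Fr g₀) : EV n := ∑ i, y i f • f.e i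

theorem sum_rot_smul (A : Fr.On n) (f : Fr g₀) (c : Fin n → ℝ) :
    ∑ i, (∑ j, A.1 j i * c j) • (Fr.rot A f).e i = ∑ i, c i • f.e i := by
  have h1 : A.1 * A.1.transpose = 1 := (Matrix.mem_orthogonalGroup_iff (Fin n) ℝ).1 A.2
  have h2 : ∀ j k, ∑ i, A.1 j i * A.1 k i = if j = k then 1 else 0 := by
    intro j k
    have h3 := congrFun (congrFun h1 j) k
    rw [Matrix.mul_apply, Matrix.one_apply] at h3
    exact h3
  calc ∑ i, (∑ j, A.1 j i * c j) • (Fr.rot A f).e i
      = ∑ i, ∑ j, ∑ k, (A.1 j i * A.1 k i * c j) • f.e k := by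
        refine Finset.sum_congr rfl fun i _ => ?_
        rw [Fr.rot_e, Finset.sum_smul]
        refine Finset.sum_congr rfl fun j _ => ?_
        rw [Finset.smul_sum]
        refine Finset.sum_congr rfl fun k _ => ?_
        rw [smul_smul]
        congr 1
        ring
    _ = ∑ j, ∑ k, (∑ i, A.1 j i * A.1 k i) • (c j • f.e k) := by
        rw [Finset.sum_comm]
        refine Finset.sum_congr rfl fun j _ => ?_
        rw [Finset.sum_comm]
        refine Finset.sum_congr rfl fun k _ => ?_
        rw [Finset.sum_smul]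
        refine Finset.sum_congr rfl fun i _ => ?_
        rw [smul_smul]
    _ = ∑ j, c j • f.e j := by
        refine Finset.sum_congr rfl fun j _ => ?_
        simp [h2]

theorem fvec_rot {y : Fin n → Fr g₀ → ℝ} (hy : Adm y) {A : Fr.On n} (hA : A ∈ H892.Stab n)
    (f : Fr g₀) : fvec y (Fr.rot A f) = fvec y f := by
  unfold fvec
  rw [← sum_rot_smul A f fun i => y i f]
  refine Finset.sum_congr rfl fun i _ => ?_
  rw [hy.equiv A hA f i]

/-- the vector field along the unit tangent bundle -/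
def fld (y : Fin n → Fr g₀ → ℝ) (p : UT g₀) : EV n :=
  fvec y (Function.surjInv (H892.isBdl_ut g₀).surj p)

theorem fld_ut {y : Fin n → Fr g₀ → ℝ} (hy : Adm y) (f : Fr g₀) :
    fld y (f.ut 0) = fvec y f := by
  obtain ⟨A, hA⟩ := (H892.isBdl_ut g₀).trans f (Function.surjInv (H892.isBdl_ut g₀).surj (f.ut 0))
    (Function.surjInv_eq (H892.isBdl_ut g₀).surj (f.ut 0)).symm
  unfold fld
  rw [← hA]
  exact fvec_rot hy ((H892.Stab n).inv_mem A.2) f

/-- the map `f ↦ (f.pt, ∑ yᵢ eᵢ)` is continuous -/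
theorem continuous_fvec {y : Fin n → Fr g₀ → ℝ} (hy : ∀ i, Continuous (y i)) :
    Continuous fun f : Fr g₀ => (⟨f.pt, fvec y f⟩ : TangentBundle 𝓘(ℝ, EV n) M) := by
  have h1 : Continuous fun f : Fr g₀ => f.1.mulR (Matrix.of fun (i : Fin n) (_ : Unit) => y i f) := by
    refine continuous_mulR.comp (Continuous.prodMk ?_ Fr.continuous_val)
    refine continuous_matrix fun i j => ?_
    exact hy i
  have h2 := (continuous_vec (n := n) (M := M) ()).comp h1
  exact h2

theorem Adm.continuous {y : Fin n → Fr g₀ → ℝ} (hy : Adm y) (i : Fin n) : Continuous (y i) :=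
  (hy.smooth i).continuous

/-- functions on the unit tangent bundle are continuous if they are so on the frame bundle -/
theorem continuous_of_ut {Z : Type} [TopologicalSpace Z] {F : UT g₀ → Z}
    (h : Continuous fun f : Fr g₀ => F (f.ut 0)) : Continuous F := by
  have := t2Space_UT g₀
  have h1 : Topology.IsQuotientMap (fun f : Fr g₀ => f.ut 0) :=
    (H892.isBdl_ut g₀).cont.isClosedMap.isQuotientMap (H892.isBdl_ut g₀).cont
      (H892.isBdl_ut g₀).surj
  exact h1.continuous_iff.2 h

theorem continuous_fld {y : Fin n → Fr g₀ → ℝ} (hy : Adm y) :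
    Continuous fun p : UT g₀ => (⟨p.pt, fld y p⟩ : TangentBundle 𝓘(ℝ, EV n) M) := by
  refine continuous_of_ut ?_
  have h1 : (fun f : Fr g₀ => (⟨(f.ut 0).pt, fld y (f.ut 0)⟩ : TangentBundle 𝓘(ℝ, EV n) M)) =
      fun f : Fr g₀ => (⟨f.pt, fvec y f⟩ : TangentBundle 𝓘(ℝ, EV n) M) := by
    funext f
    rw [fld_ut hy f]
    rfl
  rw [h1]
  exact continuous_fvec hy.continuous

/-- the rotations in the planes orthogonal to `e₀` -/
theorem on_mem_Stab {i j : Fin n} (hij : i ≠ j) (hi : i ≠ 0) (hj : j ≠ 0) (θ : ℝ) :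
    (isGen_rot hij).on θ ∈ H892.Stab n := by
  rw [H892.mem_Stab]
  have h1 : (Brk.rot (ι := Fin n) i j).mulVec (Pi.single 0 1) = 0 := by
    funext k
    simp only [Brk.rot, Matrix.mulVec_single_one, Pi.zero_apply, Matrix.col_apply,
      Matrix.sub_apply, Matrix.single_apply]
    have h2 : ¬ (i = k ∧ j = 0) := fun h => hj h.2
    have h3 : ¬ (j = k ∧ i = 0) := fun h => hi h.2
    rw [if_neg h2, if_neg h3, sub_zero]
  have h2 : (rotM (Brk.rot (ι := Fin n) i j) θ).mulVec (Pi.single 0 1) = Pi.single 0 1 := by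
    unfold rotM
    rw [Matrix.add_mulVec, Matrix.add_mulVec, Matrix.one_mulVec, Matrix.smul_mulVec,
      Matrix.smul_mulVec, ← Matrix.mulVec_mulVec, h1, Matrix.mulVec_zero]
    simp
  exact congrArg (WithLp.toLp 2) h2

/-- infinitesimal equivariance -/
theorem Adm.dZ_ver {y : Fin n → Fr g₀ → ℝ} (hy : Adm y) {i j : Fin n} (hi : i ≠ 0) (hj : j ≠ 0)
    (k : Fin n) (f : Fr g₀) :
    dZ (verZ g₀ (Brk.rot i j)) (y k) f + ∑ l, Brk.rot (ι := Fin n) i j k l * y l f = 0 := by
  by_cases hij : i = j
  · subst hij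
    have h1 : Brk.rot (ι := Fin n) i i = 0 := by simp [Brk.rot]
    have h2 : ∀ y : St (Fin n) n, Brk.ver (0 : Matrix (Fin n) (Fin n) ℝ) y = 0 := by
      intro y
      have := ver_smul (0 : ℝ) (0 : Matrix (Fin n) (Fin n) ℝ) y
      simpa using this
    rw [h1]
    unfold dZ
    rw [verZ_Z, h2, map_zero]
    simp
  · have hA := isGen_rot hij
    have h1 := (isFlow_ver (g := g₀) hA).hasDerivAt (hy.smooth k) f 0
    rw [verFlow_zero] at h1
    have h2 : HasDerivAt (fun r => y k (verFlow hA r f))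
        (∑ l, Brk.rot (ι := Fin n) i j l k * y l f) 0 := by
      have h3 : ∀ r, y k (verFlow hA r f) = ∑ l, rotM (Brk.rot (ι := Fin n) i j) r l k * y l f :=
        fun r => hy.equiv _ (on_mem_Stab hij hi hj r) f k
      simp only [h3]
      refine HasDerivAt.fun_sum fun l _ => ?_
      have h4 := (hA.hasDerivAt l k 0).mul_const (y l f)
      rw [rotM_zero, one_mul] at h4
      exact h4
    rw [h1.unique h2, ← Finset.sum_add_distrib]
    refine Finset.sum_eq_zero fun l _ => ?_
    have h5 : Brk.rot (ι := Fin n) i j l k = - Brk.rot (ι := Fin n) i j k l :=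
      congrFun (congrFun hA.skew k) l
    rw [h5]
    ring

/-- the derivative of an admissible field along a curve of frames whose horizontal direction is
`r e₀`, corrected by the rotation of the frame -/
theorem Adm.deriv_lift {y : Fin n → Fr g₀ → ℝ} (hy : Adm y) {f : Fr g₀} {a : M}
    (ha : f.pt ∈ (chartAt (EV n) a).source) {r : ℝ} {B : Matrix (Fin n) (Fin n) ℝ}
    (hB : B.transpose = -B) (k : Fin n) :
    fderiv ℝ (rd (y k) a) (chF a f.1) (tvec ((mt g₀).coef a) (Pi.single 0 r) B (chF a f.1)) +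
        ∑ l, B k l * y l f =
      r * dZ (horZ g₀ (Pi.single 0 1)) (y k) f +
        ∑ j, B j 0 * (dZ (verZ g₀ (Brk.rot j 0)) (y k) f +
          ∑ l, Brk.rot (ι := Fin n) j 0 k l * y l f) := by
  classical
  set T : Fin n → Fin n → ℝ := fun i j => dZ (verZ g₀ (Brk.rot i j)) (y k) f +
    ∑ l, Brk.rot (ι := Fin n) i j k l * y l f with hT
  have hBkl : ∀ k l, B l k = - B k l := fun k l => congrFun (congrFun hB k) l
  have hTz : ∀ i j, i ≠ 0 → j ≠ 0 → T i j = 0 := fun i j hi hj => hy.dZ_ver hi hj k f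
  have hTs : ∀ i j, T i j = - T j i := by
    intro i j
    have h1 : Brk.rot (ι := Fin n) i j = (-1 : ℝ) • Brk.rot j i := by simp [Brk.rot]
    have h2 : dZ (verZ g₀ (Brk.rot i j)) (y k) f = - dZ (verZ g₀ (Brk.rot j i)) (y k) f := by
      unfold dZ
      rw [verZ_Z, verZ_Z, h1, ver_smul, map_smul]
      simp
    simp only [hT, h2]
    have h3 : ∑ l, Brk.rot (ι := Fin n) i j k l * y l f =
        - ∑ l, Brk.rot (ι := Fin n) j i k l * y l f := by
      rw [← Finset.sum_neg_distrib]
      refine Finset.sum_congr rfl fun l _ => ?_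
      rw [h1]
      simp
    rw [h3]
    ring
  have e1 : ∑ l, B k l * y l f = ∑ i, ∑ j, B i j / 2 *
      ∑ l, Brk.rot (ι := Fin n) i j k l * y l f := by
    have h1 : ∀ l, B k l = ∑ i, ∑ j, B i j / 2 * Brk.rot (ι := Fin n) i j k l := by
      intro l
      have h2 := congrFun (congrFun (skew_eq_sum hB) k) l
      rw [h2]
      simp only [Matrix.sum_apply, Matrix.smul_apply, smul_eq_mul]
    calc ∑ l, B k l * y l f
        = ∑ l, (∑ i, ∑ j, B i j / 2 * Brk.rot (ι := Fin n) i j k l) * y l f :=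
          Finset.sum_congr rfl fun l _ => by rw [← h1 l]
      _ = _ := by
          simp only [Finset.sum_mul, Finset.mul_sum]
          rw [Finset.sum_comm]
          refine Finset.sum_congr rfl fun i _ => ?_
          rw [Finset.sum_comm]
          refine Finset.sum_congr rfl fun j _ => Finset.sum_congr rfl fun l _ => ?_
          ring
  rw [fderiv_tvec (hy.smooth k) ha _ hB, e1]
  have e2 : ∑ i, (Pi.single 0 r : Fin n → ℝ) i • dZ (horZ g₀ (Pi.single i 1)) (y k) f =
      r * dZ (horZ g₀ (Pi.single 0 1)) (y k) f := by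
    rw [Finset.sum_eq_single 0]
    · simp
    · intro b _ hb
      simp [hb]
    · simp
  rw [e2, add_assoc, ← Finset.sum_add_distrib]
  congr 1
  have e3 : ∀ i, (∑ j, (B i j / 2) • dZ (verZ g₀ (Brk.rot i j)) (y k) f) +
      (∑ j, B i j / 2 * ∑ l, Brk.rot (ι := Fin n) i j k l * y l f) =
      ∑ j, B i j / 2 * T i j := by
    intro i
    rw [← Finset.sum_add_distrib]
    refine Finset.sum_congr rfl fun j _ => ?_
    rw [smul_eq_mul, ← mul_add]
  simp only [e3]
  have e4 : ∀ i j, B i j / 2 * T i j = (if j = 0 then B i 0 / 2 * T i 0 else 0) +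
      (if i = 0 then B j 0 / 2 * T j 0 else 0) := by
    intro i j
    by_cases hi : i = 0
    · by_cases hj : j = 0
      · subst hi hj
        have h1 : T 0 0 = 0 := by
          have := hTs 0 0
          linarith
        simp [h1]
      · subst hi
        rw [if_neg hj, if_pos rfl, hBkl j 0, hTs 0 j]
        ring
    · by_cases hj : j = 0
      · subst hj
        rw [if_pos rfl, if_neg hi, add_zero]
      · rw [hTz i j hi hj, if_neg hi, if_neg hj]
        simp
  rw [Finset.sum_congr rfl fun i _ => Finset.sum_congr rfl fun j _ => e4 i j]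
  simp only [Finset.sum_add_distrib]
  have s1 : ∀ c : Fin n → ℝ, ∑ i, ∑ j : Fin n, (if j = 0 then c i else 0) = ∑ i, c i := by
    intro c
    exact Finset.sum_congr rfl fun i _ => by simp
  have s2 : ∀ c : Fin n → ℝ, ∑ i : Fin n, ∑ j, (if i = 0 then c j else 0) = ∑ i, c i := by
    intro c
    rw [Finset.sum_comm]
    exact s1 c
  rw [s1 fun i => B i 0 / 2 * T i 0, s2 fun j => B j 0 / 2 * T j 0, ← Finset.sum_add_distrib]
  refine Finset.sum_congr rfl fun j _ => ?_
  ring

end Vale.Agent.P207.H608
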