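import Vale.Agent.P207.H608.Lift
import Vale.Agent.P207.Nrm

/-!
# P207, H608: the normalization map between the unit tangent bundles of two metrics
-/

open scoped Manifold ContDiff ENNReal Topology
open Bundle MeasureTheory Set Filter

noncomputable section

set_option maxSynthPendingDepth 3
set_option linter.unusedSectionVars false

namespace Vale.Agent.P207.H608

open Vale.Agent.P207.Q
open Vale.Agent.P255 (RMetric coefIn Gam Riem IsGeo Metric Npc ExpSys toMetric geo expg cc trans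
  IsGeodesic coefL chris chrisB IsMetricOn covD)

variable {n : ℕ} {M : Type} [TopologicalSpace M] [ChartedSpace (EV n) M]
  [IsManifold 𝓘(ℝ, EV n) ∞ M] {g₀ g : RMetric (EV n) M}

theorem vec_ne_zero (p : UT g) : p.vec ≠ 0 := by
  intro h
  have h1 : (g.inner p.pt p.vec p.vec : ℝ) = 1 := p.2
  rw [h] at h1
  simp at h1

/-- the map `v ↦ v / |v|_{g₀}` from the unit tangent bundle of `g` to the unit tangent bundle of
`g₀` -/
def nz (g₀ : RMetric (EV n) M) (p : UT g) : UT g₀ := unitDir g₀ p.pt p.vec (vec_ne_zero p)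

theorem nrm_pos (p : UT g) : 0 < nrm g g₀ p :=
  Real.sqrt_pos.2 (g₀.pos p.pt p.vec (vec_ne_zero p))

theorem nz_pt (p : UT g) : (nz g₀ p).pt = p.pt := rfl

theorem nz_val (p : UT g) : (nz g₀ p).1 =
    (⟨p.pt, ((nrm g g₀ p)⁻¹ • (p.vec : EV n) : EV n)⟩ : TangentBundle 𝓘(ℝ, EV n) M) := rfl

theorem nz_vec (p : UT g) : ((nz g₀ p).vec : EV n) = (nrm g g₀ p)⁻¹ • (p.vec : EV n) := rfl

/-- the `g`-length of the normalized vector -/
theorem nrm_nz (p : UT g) : nrm g₀ g (nz g₀ p) = (nrm g g₀ p)⁻¹ := by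
  have h0 : (g.inner p.pt p.vec p.vec : ℝ) = 1 := p.2
  have h1 : (g.inner p.pt ((nrm g g₀ p)⁻¹ • p.vec) ((nrm g g₀ p)⁻¹ • p.vec) : ℝ) =
      (nrm g g₀ p)⁻¹ * (nrm g g₀ p)⁻¹ := by
    simp only [map_smul, smul_apply, smul_eq_mul]
    rw [h0]
    ring
  change Real.sqrt (g.inner p.pt ((nrm g g₀ p)⁻¹ • p.vec) ((nrm g g₀ p)⁻¹ • p.vec) : ℝ) = _
  rw [h1, Real.sqrt_mul_self (inv_nonneg.2 (nrm_pos p).le)]

/-- the state of the normalized vector -/
theorem chT_nz (a : M) (p : UT g) :
    chT a (nz g₀ p).1 = ((chT a p.1).1, (nrm g g₀ p)⁻¹ • (chT a p.1).2) := by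
  refine Prod.ext rfl ?_
  rw [nz_val]
  change fderiv ℝ _ _ ((nrm g g₀ p)⁻¹ • (p.vec : EV n)) = _
  rw [map_smul]
  rfl

variable [CompactSpace M] [T2Space M]

theorem continuous_nz : Continuous (nz g₀ : UT g → UT g₀) := by
  refine Continuous.subtype_mk (f := fun p : UT g => (nz g₀ p).1) ?_ _
  rw [continuous_iff_continuousAt]
  intro p
  have ha : p.pt ∈ (chartAt (EV n) p.pt).source := mem_chart_source _ _
  set a := p.pt with hadef
  have h1 : ContinuousAt (fun q : UT g => chT a q.1) p :=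
    ContinuousAt.comp (g := chT a) (f := fun q : UT g => q.1) (continuousAt_chT a ha)
      (continuous_val g).continuousAt
  have h2 : ContinuousAt (fun q : UT g => ((chT a q.1).1, (nrm g g₀ q)⁻¹ • (chT a q.1).2)) p := by
    refine h1.fst.prodMk ?_
    exact ((continuous_nrm g g₀).continuousAt.inv₀ (nrm_pos p).ne').smul h1.snd
  have h3 : ContinuousAt (fun q : UT g => chTs a
      ((chT a q.1).1, (nrm g g₀ q)⁻¹ • (chT a q.1).2)) p := by
    refine ContinuousAt.comp (g := chTs a)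
      (f := fun q : UT g => ((chT a q.1).1, (nrm g g₀ q)⁻¹ • (chT a q.1).2)) ?_ h2
    exact continuousAt_chTs a ((chartAt (EV n) a).map_source ha)
  refine h3.congr ?_
  have h4 : ∀ᶠ q : UT g in 𝓝 p, q.pt ∈ (chartAt (EV n) a).source :=
    (continuous_pt g).continuousAt.preimage_mem_nhds ((chartAt (EV n) a).open_source.mem_nhds ha)
  filter_upwards [h4] with q hq
  rw [← chT_nz]
  exact chTs_chT a hq

/-- the two normalization maps are inverse to each other -/
theorem nz_nz (p : UT g) : nz g (nz g₀ p) = p := by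
  apply Subtype.ext
  rw [nz_val]
  have h1 : (nrm g₀ g (nz g₀ p))⁻¹ • ((nz g₀ p).vec : EV n) = (p.vec : EV n) := by
    rw [nrm_nz, inv_inv, nz_vec]
    exact smul_inv_smul₀ (nrm_pos p).ne' (p.vec : EV n)
  rw [h1]
  rfl

/-- the normalization homeomorphism -/
def nzHomeo (g g₀ : RMetric (EV n) M) : UT g ≃ₜ UT g₀ where
  toFun := nz g₀
  invFun := nz g
  left_inv := nz_nz
  right_inv := nz_nz
  continuous_toFun := continuous_nz
  continuous_invFun := continuous_nz

end Vale.Agent.P207.H608
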