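import Vale.Agent.P207.H608.InvB
import Vale.Agent.P207.H608.ExpB0
import Vale.Agent.P207.H608.ExpCont

/-!
# P207, H608: the test map in the direction `g → g₀`
-/

open scoped Manifold ContDiff ENNReal Topology
open Bundle MeasureTheory Set Filter

noncomputable section

set_option maxSynthPendingDepth 3
set_option linter.unusedSectionVars false

namespace Vale.Agent.P207.H608

open Vale.Agent.P207.Q Vale.Agent.P207.Q.Fl Vale.Agent.P207.H248
open Vale.Agent.P207.Q.H545 (Rf Rf_eq)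
open Vale.Agent.P207.Q.H743 (smF_Rf)
open Vale.Agent.P255 (RMetric coefIn Gam Riem IsGeo Metric Npc ExpSys toMetric geo expg cc trans
  IsGeodesic coefL chris chrisB IsMetricOn covD)

variable {n : ℕ} {M : Type} [TopologicalSpace M] [ChartedSpace (EV n) M]
  [IsManifold 𝓘(ℝ, EV n) ∞ M] [NeZero n] [CompactSpace M] [T2Space M] {g₀ g : RMetric (EV n) M}

theorem dZ_of_zero {Z : ChField g} {Ψ : ℝ → Fr g → Fr g} (h : IsFlow Z Ψ) {F : Fr g → ℝ}
    (hF : SmF F) (h0 : ∀ f, F f = 0) (p : Fr g) : dZ Z F p = 0 := by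
  have h1 := h.hasDerivAt hF p 0
  simp only [h0] at h1
  rw [h.zero] at h1
  exact h1.unique (hasDerivAt_const 0 (0 : ℝ))

/-- smallness of the metric `g` and of the test field -/
structure SmallB (g₀ g : RMetric (EV n) M) (y : Fin n → Fr g₀ → ℝ) (δ : ℝ) : Prop where
  k_le : ∀ i j f, |kf g₀ g i j f| ≤ δ
  Hk_le : ∀ m i j f, |dZ (horZ g₀ (Pi.single m 1)) (kf g₀ g i j) f| ≤ δ
  y_le : ∀ i f, |y i f| ≤ δ
  Hy_le : ∀ i f, |dZ (horZ g₀ (Pi.single 0 1)) (y i) f| ≤ δ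
  Vy_le : ∀ i j f, j ≠ 0 → |dZ (verZ g₀ (Brk.rot j 0)) (y i) f| ≤ δ

theorem Zb_bound {y : Fin n → Fr g₀ → ℝ} {δ : ℝ} (h : SmallB g₀ g y δ) (j : Fin n) (f : Fr g₀) :
    |Zb g₀ g j f| ≤ 3 / 2 * δ := by
  unfold Zb
  have h1 := h.Hk_le 0 0 j f
  have h2 := h.Hk_le j 0 0 f
  rw [abs_le] at *
  constructor <;> linarith [h1.1, h1.2, h2.1, h2.2]

/-- the length of the normalized vector -/
theorem nrm_sq_mul {p : UT g} {f₀ : Fr g₀} (hf₀ : f₀.ut 0 = nz g₀ p) {δ : ℝ} (hδ : δ ≤ 1 / 2)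
    (hk : |kf g₀ g 0 0 f₀| ≤ δ) : nrm g g₀ p ^ 2 * (1 + kf g₀ g 0 0 f₀) = 1 := by
  have h1 : nrm g₀ g (f₀.ut 0) = (nrm g g₀ p)⁻¹ := by rw [hf₀]; exact nrm_nz p
  have h2 : nrm g₀ g (f₀.ut 0) = Real.sqrt (1 + kf g₀ g 0 0 f₀) := by
    have h3 := inner_eq_kf (g := g) f₀ 0 0
    rw [if_pos rfl] at h3
    rw [← h3]
    rfl
  have hpos : 0 < 1 + kf g₀ g 0 0 f₀ := by
    have := (abs_le.1 hk).1
    linarith
  have hr := nrm_pos (g₀ := g₀) p
  have h4 : 1 + kf g₀ g 0 0 f₀ = ((nrm g g₀ p)⁻¹) ^ 2 := by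
    rw [← h1, h2, Real.sq_sqrt hpos.le]
  rw [h4, inv_pow]
  exact mul_inv_cancel₀ (pow_ne_zero 2 hr.ne')

theorem rot_zero_row {j : Fin n} (hj : j ≠ 0) (c : Fin n → ℝ) :
    ∑ l, Brk.rot (ι := Fin n) j 0 0 l * c l = - c j := by
  have h1 : ∀ l, Brk.rot (ι := Fin n) j 0 0 l * c l = if l = j then - c j else 0 := by
    intro l
    simp only [Brk.rot, Matrix.sub_apply, Matrix.single_apply]
    have h2 : ¬ (j = 0 ∧ (0 : Fin n) = l) := fun h => hj h.1
    rw [if_neg h2]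
    by_cases hl : l = j
    · subst hl
      simp
    · have h3 : ¬ (True ∧ j = l) := fun h => hl h.2.symm
      simp [hl, Ne.symm hl]
  simp only [h1, Finset.sum_ite_eq', Finset.mem_univ, if_true]

theorem abs_rot_le (i j k l : Fin n) : |Brk.rot (ι := Fin n) i j k l| ≤ 2 := by
  simp only [Brk.rot, Matrix.sub_apply, Matrix.single_apply]
  have h1 : ∀ P : Prop, ∀ [Decidable P], |(if P then (1 : ℝ) else 0)| ≤ 1 := by
    intro P _
    split_ifs <;> simp
  refine (abs_sub _ _).trans ?_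
  have := h1 (i = k ∧ j = l)
  have := h1 (j = k ∧ i = l)
  linarith

theorem fK_zero_zero (y : Fin n → Fr g₀ → ℝ) (f : Fr g₀) :
    fK (fun i => y i f) f 0 0 = - Ky g₀ y f := by
  have ha : f.pt ∈ (chartAt (EV n) f.pt).source := mem_chart_source _ _
  have hm := (mt g₀).isMetricOn f.pt
  have hu := (chartAt (EV n) f.pt).map_source ha
  unfold fK Ky
  rw [neg_neg]
  refine Finset.sum_congr rfl fun k _ => Finset.sum_congr rfl fun l _ => ?_
  have h1 : Rf g₀ f 0 k l 0 = Rf g₀ f k 0 0 l := by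
    rw [H743.Rf_eq_RR f _ _ _ _ ha, H743.Rf_eq_RR f _ _ _ _ ha,
      H545.RR_anti hm hu 0 k l 0, H545.RR_skew hm hu k 0 l 0, neg_neg]
  rw [h1]
  ring

/-- **the pointwise expansion** of the speed of the test map in the direction `g → g₀` -/
theorem exists_pointwise (g₀ : RMetric (EV n) M) : ∃ C : ℝ, 1 ≤ C ∧
    ∀ (g : RMetric (EV n) M) (φ : ℝ → UT g → UT g) (y : Fin n → Fr g₀ → ℝ) (δ : ℝ),
      IsGeoFlow g φ → Adm y → 0 ≤ δ → C * δ ≤ 1 → SmallB g₀ g y δ →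
      ∀ (p : UT g) (f₀ : Fr g₀), f₀.ut 0 = nz g₀ p →
      ∃ (q : Fr g₀) (x : Fin n → ℝ), q.pt = expg (mt g₀) p.pt (fld y (nz g₀ p)) ∧
        HasDerivAt (fun t => chartAt (EV n) q.pt
          (expg (mt g₀) (φ t p).pt (fld y (nz g₀ (φ t p))))) (∑ i, x i • q.e i) 0 ∧
        Real.sqrt (∑ i, x i ^ 2) ≤ WB g₀ g y f₀ + C * δ ^ 3 := by
  obtain ⟨C₁, hC₁, hq⟩ := exists_qvar g₀
  obtain ⟨C₂, hC₂, hR, -⟩ := exists_bound_Rf g₀
  have hn1 : (1 : ℝ) ≤ n := by
    have : 1 ≤ n := Nat.one_le_iff_ne_zero.2 (NeZero.ne n)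
    exact_mod_cast this
  have hn0 : (0 : ℝ) ≤ n := by linarith
  set m : ℝ := n ^ 2 * C₂ with hm
  have hnn : (n : ℝ) ≤ n ^ 2 := by nlinarith
  have hm1 : (n : ℝ) ^ 2 ≤ m := le_mul_of_one_le_right (by positivity) hC₂
  have hm2 : (n : ℝ) ≤ m := hnn.trans hm1
  have hm3 : 1 ≤ m := hn1.trans hm2
  set C₃ : ℝ := C₁ + 15 * m with hC₃
  have hC₃1 : 1 ≤ C₃ := by linarith
  have hC₃2 : 0 ≤ (5 + 10 * (n : ℝ)) * C₃ ^ 2 := by positivity
  refine ⟨16 * C₃ + (5 + 10 * n) * C₃ ^ 2, by linarith, ?_⟩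
  intro g φ y δ hφ hy hδ0 hCδ hs p f₀ hf₀
  have : Nonempty (Fr g₀) := ⟨f₀⟩
  have hδC : 16 * C₃ * δ ≤ 1 := by
    have h1 : 0 ≤ (5 + 10 * (n : ℝ)) * C₃ ^ 2 * δ := mul_nonneg hC₃2 hδ0
    have h2 : (16 * C₃ + (5 + 10 * n) * C₃ ^ 2) * δ = 16 * C₃ * δ +
      (5 + 10 * (n : ℝ)) * C₃ ^ 2 * δ := by ring
    linarith
  have hmδ : 240 * m * δ ≤ 1 := by
    have h1 : 0 ≤ C₁ * δ := mul_nonneg (by linarith) hδ0
    have h2 : 16 * C₃ * δ = 16 * (C₁ * δ) + 240 * m * δ := by rw [hC₃]; ring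
    linarith
  have hC₁δ : C₁ * δ ≤ 1 := by
    have h1 : 0 ≤ m * δ := mul_nonneg (by linarith) hδ0
    have h2 : 16 * C₃ * δ = 16 * (C₁ * δ) + 240 * (m * δ) := by rw [hC₃]; ring
    have h3 : 0 ≤ C₁ * δ := mul_nonneg (by linarith) hδ0
    linarith
  have hδ1 : δ ≤ 1 / 240 := by
    have h1 : δ ≤ m * δ := le_mul_of_one_le_left hδ0 hm3
    linarith
  have hnδ : (n : ℝ) * δ ≤ 1 / 2 := by
    have h1 : (n : ℝ) * δ ≤ m * δ := mul_le_mul_of_nonneg_right hm2 hδ0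
    linarith
  set u := kf g₀ g 0 0 f₀ with hu
  have hru : nrm g g₀ p ^ 2 * (1 + u) = 1 := nrm_sq_mul hf₀ (by linarith) (hs.k_le 0 0 f₀)
  have hu4 : |u| ≤ 1 / 4 := (hs.k_le 0 0 f₀).trans (by linarith)
  set r := nrm g g₀ p with hr
  have hrpos : 0 < r := nrm_pos p
  obtain ⟨hr1, hr2, hr3⟩ := inv_sqrt_bounds hrpos hru hu4
  -- the lift
  have ha : f₀.pt ∈ (chartAt (EV n) f₀.pt).source := mem_chart_source _ _
  obtain ⟨F, hF0, hFut, hFc, B, S, hB, hS, hBj, hFd⟩ := exists_lift_nz hφ p hf₀ ha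
  rw [← hr] at hBj hFd
  have hB00 : B 0 0 = 0 := by
    have h1 := congrFun (congrFun hB 0) 0
    rw [Matrix.transpose_apply, Matrix.neg_apply] at h1
    linarith
  -- the solution `S`
  have hSb : ∀ l, |S l| ≤ 3 * δ ∧ |S l - Zb g₀ g l f₀| ≤ 3 * n * δ ^ 2 := by
    intro l
    have h1 := solve_bound (k := fun m l => kf g₀ g m l f₀) (Z := fun l => Zb g₀ g l f₀)
      (fun m l => hs.k_le m l f₀) hnδ (fun l => Zb_bound hs l f₀) hS l
    refine ⟨by linarith [h1.1], h1.2.trans (le_of_eq ?_)⟩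
    ring
  set S' : Fin n → ℝ := fun j => if j = 0 then 0 else S j with hS'
  have hS'b : ∀ j, |S' j| ≤ 3 * δ := by
    intro j
    by_cases hj : j = 0
    · simp only [hS', if_pos hj, abs_zero]; positivity
    · simp only [hS', if_neg hj]; exact (hSb j).1
  have hBS : ∀ j, B j 0 = - (r * S' j) := by
    intro j
    by_cases hj : j = 0
    · simp only [hS', if_pos hj, mul_zero, neg_zero]
      rw [hj]; exact hB00
    · simp only [hS', if_neg hj]; exact hBj j hj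
  have hFa : (F 0).pt ∈ (chartAt (EV n) f₀.pt).source := by rw [hF0]; exact ha
  -- the field along the curve
  have hηd : HasDerivAt (fun t => fun i => y i (F t)) (fun i => fderiv ℝ (rd (y i) f₀.pt)
      (chF f₀.pt f₀.1) (tvec ((mt g₀).coef f₀.pt) (Pi.single 0 r) B (chF f₀.pt f₀.1))) 0 := by
    refine hasDerivAt_pi.2 fun i => ?_
    have h1 := hasDerivAt_smF (hy.smooth i) hFc hFa hFd
    rw [hF0] at h1
    exact h1
  set T : Fin n → Fin n → ℝ := fun i j => dZ (verZ g₀ (Brk.rot j 0)) (y i) f₀ +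
    ∑ l, Brk.rot (ι := Fin n) j 0 i l * y l f₀ with hT
  set h : Fin n → ℝ := fun i => dZ (horZ g₀ (Pi.single 0 1)) (y i) f₀ with hh
  have hder : ∀ i, fderiv ℝ (rd (y i) f₀.pt) (chF f₀.pt f₀.1)
      (tvec ((mt g₀).coef f₀.pt) (Pi.single 0 r) B (chF f₀.pt f₀.1)) + ∑ l, B i l * y l f₀ =
      r * (h i - ∑ j, S' j * T i j) := by
    intro i
    rw [hy.deriv_lift ha hB i, mul_sub, Finset.mul_sum, sub_eq_add_neg, ← Finset.sum_neg_distrib]
    congr 1
    refine Finset.sum_congr rfl fun j _ => ?_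
    rw [hBS j]
    simp only [hT]
    ring
  have hTb : ∀ i j, |S' j * T i j| ≤ 9 * n * δ ^ 2 := by
    intro i j
    by_cases hj : j = 0
    · simp only [hS', if_pos hj, zero_mul, abs_zero]; positivity
    have h1 : |T i j| ≤ δ + n * (2 * δ) := by
      refine (abs_add_le _ _).trans (add_le_add (hs.Vy_le i j f₀ hj) ?_)
      calc |∑ l, Brk.rot (ι := Fin n) j 0 i l * y l f₀|
          ≤ ∑ l, |Brk.rot (ι := Fin n) j 0 i l * y l f₀| := Finset.abs_sum_le_sum_abs _ _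
        _ ≤ ∑ _l : Fin n, 2 * δ := Finset.sum_le_sum fun l _ => by
            rw [abs_mul]
            exact mul_le_mul (abs_rot_le _ _ _ _) (hs.y_le l f₀) (abs_nonneg _) (by norm_num)
        _ = n * (2 * δ) := by
            rw [Finset.sum_const, Finset.card_univ, Fintype.card_fin, nsmul_eq_mul]
    have h2 : δ + n * (2 * δ) ≤ 3 * n * δ := by
      have : δ ≤ n * δ := le_mul_of_one_le_left hδ0 hn1
      linarith
    rw [abs_mul]
    calc |S' j| * |T i j| ≤ (3 * δ) * (3 * n * δ) :=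
          mul_le_mul (hS'b j) (h1.trans h2) (abs_nonneg _) (by positivity)
      _ = 9 * n * δ ^ 2 := by ring
  have hTs : ∀ i, |∑ j, S' j * T i j| ≤ 9 * m * δ ^ 2 := by
    intro i
    calc |∑ j, S' j * T i j| ≤ ∑ j, |S' j * T i j| := Finset.abs_sum_le_sum_abs _ _
      _ ≤ ∑ _j : Fin n, 9 * n * δ ^ 2 := Finset.sum_le_sum fun j _ => hTb i j
      _ = 9 * (n ^ 2) * δ ^ 2 := by
          rw [Finset.sum_const, Finset.card_univ, Fintype.card_fin, nsmul_eq_mul]; ring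
      _ ≤ 9 * m * δ ^ 2 := by
          have := mul_le_mul_of_nonneg_right hm1 (sq_nonneg δ)
          linarith
  have hmδ2 : m * δ ^ 2 ≤ δ / 240 := by
    have h1 : m * δ ^ 2 = (m * δ) * δ := by ring
    rw [h1]
    have h2 : m * δ ≤ 1 / 240 := by linarith
    have := mul_le_mul_of_nonneg_right h2 hδ0
    linarith
  have hb2 : ∀ i, |r * (h i - ∑ j, S' j * T i j)| ≤ 2 * δ := by
    intro i
    rw [abs_mul, abs_of_pos hrpos]
    have h1 : |h i - ∑ j, S' j * T i j| ≤ δ + 9 * m * δ ^ 2 :=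
      (abs_sub _ _).trans (add_le_add (hs.Hy_le i f₀) (hTs i))
    have h2 : |h i - ∑ j, S' j * T i j| ≤ 8 / 5 * δ := by linarith
    calc r * |h i - ∑ j, S' j * T i j| ≤ 5 / 4 * (8 / 5 * δ) :=
          mul_le_mul hr2 h2 (abs_nonneg _) (by norm_num)
      _ = 2 * δ := by ring
  -- apply the expansion
  have hFd' : HasDerivAt (fun t => chF f₀.pt (F t).1)
      (tvec ((mt g₀).coef f₀.pt) (Pi.single 0 r) B (chF f₀.pt (F 0).1)) 0 := by
    rw [hF0]; exact hFd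
  obtain ⟨q, x, hqpt, hqd, hqx⟩ := hq F (fun t i => y i (F t)) (Pi.single 0 r) _ B f₀.pt δ hFc hFa
    hFd' hηd hδ0 hC₁δ (fun i => hs.y_le i (F 0))
    (fun i => by
      by_cases hi : i = 0
      · subst hi
        rw [Pi.single_eq_same, abs_of_pos hrpos]
        linarith
      · rw [Pi.single_eq_of_ne hi, abs_zero]; norm_num)
    (fun i => by
      rw [hF0, hder i]
      exact hb2 i)
  have hpt : f₀.pt = p.pt := congrArg UT.pt hf₀
  refine ⟨q, x, ?_, ?_, ?_⟩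
  · rw [hqpt, hF0, hpt]
    congr 1
    rw [← hf₀, fld_ut hy]
    rfl
  · refine hqd.congr_of_eventuallyEq ?_
    filter_upwards [hFut] with t ht
    have h1 : (F t).pt = (φ t p).pt := congrArg UT.pt ht
    have h2 : fld y (nz g₀ (φ t p)) = ∑ i, y i (F t) • (F t).e i := by
      rw [← ht, fld_ut hy]
      rfl
    rw [h1, h2]
  · -- the norm
    have hfK : ∀ i, ∑ j, fK (fun i => y i (F 0)) (F 0) j i * (Pi.single 0 r : Fin n → ℝ) j =
        fK (fun i => y i f₀) f₀ 0 i * r := by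
      intro i
      rw [hF0, Finset.sum_eq_single 0]
      · rw [Pi.single_eq_same]
      · intro j _ hj
        rw [Pi.single_eq_of_ne hj, mul_zero]
      · simp
    simp only [hF0, hder] at hqx
    have hqx' : ∀ i, |x i - ((Pi.single 0 r : Fin n → ℝ) i + r * (h i - ∑ j, S' j * T i j) -
        1 / 2 * (fK (fun i => y i f₀) f₀ 0 i * r))| ≤ C₁ * δ ^ 3 := by
      intro i
      have h1 := hqx i
      have h2 := hfK i
      simp only [hF0] at h2
      rw [h2] at h1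
      exact h1
    have hδ3 : 0 ≤ δ ^ 3 := by positivity
    have hδ2 : 0 ≤ δ ^ 2 := by positivity
    have hδ32 : δ ^ 3 ≤ δ ^ 2 := by
      have h1 : δ ^ 3 = δ ^ 2 * δ := by ring
      rw [h1]
      exact mul_le_of_le_one_right hδ2 (by linarith)
    -- the quantities of the expansion
    set z : ℝ := ∑ j, Zb g₀ g j f₀ * y j f₀ with hz
    set κ : ℝ := Ky g₀ y f₀ / 2 with hκ
    have hfKb : ∀ i, |fK (fun i => y i f₀) f₀ 0 i| ≤ m * δ ^ 2 := by
      intro i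
      unfold fK
      calc |∑ k, ∑ l, y k f₀ * y l f₀ * Rf g₀ f₀ 0 k l i|
          ≤ ∑ _k : Fin n, ∑ _l : Fin n, δ * δ * C₂ := by
            refine (Finset.abs_sum_le_sum_abs _ _).trans (Finset.sum_le_sum fun k _ => ?_)
            refine (Finset.abs_sum_le_sum_abs _ _).trans (Finset.sum_le_sum fun l _ => ?_)
            rw [abs_mul, abs_mul]
            exact mul_le_mul (mul_le_mul (hs.y_le k f₀) (hs.y_le l f₀) (abs_nonneg _) hδ0)
              (hR _ _ _ _ _) (abs_nonneg _) (by positivity)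
        _ = m * δ ^ 2 := by
            simp only [Finset.sum_const, Finset.card_univ, Fintype.card_fin, nsmul_eq_mul]
            rw [hm]; ring
    have hKyb : |Ky g₀ y f₀| ≤ m * δ ^ 2 := by
      have h1 := hfKb 0
      rw [fK_zero_zero, abs_neg] at h1
      exact h1
    have hC₃m : 15 * m ≤ C₃ := by linarith
    have hzb : |z| ≤ C₃ * δ ^ 2 := by
      calc |z| ≤ ∑ j, |Zb g₀ g j f₀ * y j f₀| := Finset.abs_sum_le_sum_abs _ _
        _ ≤ ∑ _j : Fin n, (3 / 2 * δ) * δ := Finset.sum_le_sum fun j _ => by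
            rw [abs_mul]
            exact mul_le_mul (Zb_bound hs j f₀) (hs.y_le j f₀) (abs_nonneg _) (by positivity)
        _ = 3 / 2 * n * δ ^ 2 := by
            rw [Finset.sum_const, Finset.card_univ, Fintype.card_fin, nsmul_eq_mul]; ring
        _ ≤ C₃ * δ ^ 2 := mul_le_mul_of_nonneg_right (by linarith) hδ2
    have hκb : |κ| ≤ C₃ * δ ^ 2 := by
      rw [hκ, abs_div, abs_two]
      have h1 : m * δ ^ 2 ≤ C₃ * δ ^ 2 := mul_le_mul_of_nonneg_right (by linarith) hδ2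
      have h2 : 0 ≤ m * δ ^ 2 := mul_nonneg (by linarith) hδ2
      linarith
    have hh0 : h 0 = 0 :=
      dZ_of_zero (isHorFlow_flow g₀ (Pi.single 0 1)).isFlow (hy.smooth 0) hy.zero f₀
    -- the first component
    have hT0 : ∑ j, S' j * T 0 j = - ∑ j, S j * y j f₀ := by
      rw [← Finset.sum_neg_distrib]
      refine Finset.sum_congr rfl fun j _ => ?_
      by_cases hj : j = 0
      · simp only [hS', if_pos hj, zero_mul]
        rw [hj, hy.zero f₀, mul_zero, neg_zero]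
      · have h1 : T 0 j = - y j f₀ := by
          simp only [hT]
          rw [dZ_of_zero (isFlow_ver (g := g₀) (isGen_rot hj)) (hy.smooth 0) hy.zero f₀,
            rot_zero_row hj fun l => y l f₀, zero_add]
        simp only [hS', if_neg hj]
        rw [h1]
        ring
    have hSZ : |∑ j, (S j - Zb g₀ g j f₀) * y j f₀| ≤ 3 * n ^ 2 * δ ^ 3 := by
      calc |∑ j, (S j - Zb g₀ g j f₀) * y j f₀|
          ≤ ∑ j, |(S j - Zb g₀ g j f₀) * y j f₀| := Finset.abs_sum_le_sum_abs _ _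
        _ ≤ ∑ _j : Fin n, (3 * n * δ ^ 2) * δ := Finset.sum_le_sum fun j _ => by
            rw [abs_mul]
            exact mul_le_mul (hSb j).2 (hs.y_le j f₀) (abs_nonneg _) (by positivity)
        _ = 3 * n ^ 2 * δ ^ 3 := by
            rw [Finset.sum_const, Finset.card_univ, Fintype.card_fin, nsmul_eq_mul]; ring
    have hx0 : |x 0 - r * (1 + z + κ)| ≤ C₃ * δ ^ 3 := by
      have h1 := hqx' 0
      rw [Pi.single_eq_same, hh0, hT0, fK_zero_zero] at h1
      have h2 : x 0 - r * (1 + z + κ) = (x 0 - (r + r * (0 - - ∑ j, S j * y j f₀) -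
          1 / 2 * (- Ky g₀ y f₀ * r))) + r * ∑ j, (S j - Zb g₀ g j f₀) * y j f₀ := by
        have h3 : ∑ j, (S j - Zb g₀ g j f₀) * y j f₀ = (∑ j, S j * y j f₀) - z := by
          rw [hz, ← Finset.sum_sub_distrib]
          exact Finset.sum_congr rfl fun j _ => by ring
        rw [h3, hκ]
        ring
      rw [h2]
      refine (abs_add_le _ _).trans ?_
      have h4 : |r * ∑ j, (S j - Zb g₀ g j f₀) * y j f₀| ≤ 4 * m * δ ^ 3 := by
        rw [abs_mul, abs_of_pos hrpos]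
        calc r * |∑ j, (S j - Zb g₀ g j f₀) * y j f₀| ≤ 5 / 4 * (3 * n ^ 2 * δ ^ 3) :=
              mul_le_mul hr2 hSZ (abs_nonneg _) (by norm_num)
          _ = 15 / 4 * (n ^ 2 * δ ^ 3) := by ring
          _ ≤ 4 * (m * δ ^ 3) := by
              have h5 := mul_le_mul_of_nonneg_right hm1 hδ3
              have h6 : 0 ≤ (n : ℝ) ^ 2 * δ ^ 3 := by positivity
              linarith
          _ = 4 * m * δ ^ 3 := by ring
      have h5 : 4 * m * δ ^ 3 ≤ 15 * m * δ ^ 3 := by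
        have : 0 ≤ m * δ ^ 3 := mul_nonneg (by linarith) hδ3
        linarith
      have h6 : C₃ * δ ^ 3 = C₁ * δ ^ 3 + 15 * m * δ ^ 3 := by rw [hC₃]; ring
      rw [h6]
      linarith
    have hxi : ∀ i, i ≠ 0 → |x i - r * h i| ≤ C₃ * δ ^ 2 := by
      intro i hi
      have h1 := hqx' i
      rw [Pi.single_eq_of_ne hi] at h1
      have h2 : x i - r * h i = (x i - (0 + r * (h i - ∑ j, S' j * T i j) -
          1 / 2 * (fK (fun i => y i f₀) f₀ 0 i * r))) +
          (- (r * ∑ j, S' j * T i j) + - (1 / 2 * (fK (fun i => y i f₀) f₀ 0 i * r))) := by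
        ring
      rw [h2]
      refine (abs_add_le _ _).trans ?_
      have h3 : |r * ∑ j, S' j * T i j| ≤ 45 / 4 * (m * δ ^ 2) := by
        rw [abs_mul, abs_of_pos hrpos]
        calc r * |∑ j, S' j * T i j| ≤ 5 / 4 * (9 * m * δ ^ 2) :=
              mul_le_mul hr2 (hTs i) (abs_nonneg _) (by norm_num)
          _ = 45 / 4 * (m * δ ^ 2) := by ring
      have h4 : |1 / 2 * (fK (fun i => y i f₀) f₀ 0 i * r)| ≤ 5 / 8 * (m * δ ^ 2) := by
        rw [abs_mul, abs_mul, abs_of_pos hrpos, abs_of_pos (by norm_num : (0 : ℝ) < 1 / 2)]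
        have h5 : |fK (fun i => y i f₀) f₀ 0 i| * r ≤ m * δ ^ 2 * (5 / 4) :=
          mul_le_mul (hfKb i) hr2 hrpos.le (mul_nonneg (by linarith) hδ2)
        linarith
      have h5 := abs_add_le (- (r * ∑ j, S' j * T i j))
        (- (1 / 2 * (fK (fun i => y i f₀) f₀ 0 i * r)))
      rw [abs_neg, abs_neg] at h5
      have h6 : C₁ * δ ^ 3 ≤ C₁ * δ ^ 2 := mul_le_mul_of_nonneg_left hδ32 (by linarith)
      have h7 : C₃ * δ ^ 2 = C₁ * δ ^ 2 + 15 * (m * δ ^ 2) := by rw [hC₃]; ring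
      have h8 : 0 ≤ m * δ ^ 2 := mul_nonneg (by linarith) hδ2
      rw [h7]
      linarith
    have hfin := norm_expB hC₃1 hδ0 hδC hrpos hru (hs.k_le 0 0 f₀) hzb hκb
      (fun i => hs.Hy_le i f₀) hh0 hx0 hxi
    refine hfin.trans ?_
    have h1 : WB g₀ g y f₀ = 1 - u / 2 + 3 / 8 * u ^ 2 + z + κ + (∑ i, h i ^ 2) / 2 := rfl
    rw [h1]
    have h2 : 0 ≤ 16 * C₃ * δ ^ 3 := by positivity
    have h3 : (16 * C₃ + (5 + 10 * (n : ℝ)) * C₃ ^ 2) * δ ^ 3 = 16 * C₃ * δ ^ 3 +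
        (5 + 10 * n) * C₃ ^ 2 * δ ^ 3 := by ring
    rw [h3]
    linarith

end Vale.Agent.P207.H608
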