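import Vale.Agent.P207.H608.DirB2
import Vale.Agent.P207.H992.B2

/-!
# P207, H608: block EXP-B, the test map in the direction `g' → g`
-/

open scoped Manifold ContDiff ENNReal Topology
open Bundle MeasureTheory Set Filter

noncomputable section

set_option maxSynthPendingDepth 3
set_option linter.unusedSectionVars false

namespace Vale.Agent.P207.H608

open Vale.Agent.P207.Q Vale.Agent.P207.Q.Fl
open Vale.Agent.P207.Q.H545 (Rf Rf_eq)
open Vale.Agent.P255 (RMetric coefIn Gam Riem IsGeo Metric Npc ExpSys toMetric geo expg cc trans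
  IsGeodesic coefL chris chrisB IsMetricOn covD)

section TM

variable {n : ℕ} {M : Type} [TopologicalSpace M] [ChartedSpace (EV n) M]
  [IsManifold 𝓘(ℝ, EV n) ∞ M] [NeZero n] [CompactSpace M] [T2Space M] {g₀ g : RMetric (EV n) M}

theorem bilin_sum (G : EV n →L[ℝ] EV n →L[ℝ] ℝ) (e : Fin n → EV n)
    (h : ∀ i j, G (e i) (e j) = if i = j then 1 else 0) (x : Fin n → ℝ) :
    G (∑ i, x i • e i) (∑ i, x i • e i) = ∑ i, x i ^ 2 := by
  have h3 : ∀ v, G (∑ i, x i • e i) v = ∑ i, x i * G (e i) v := by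
    intro v
    rw [map_sum, sum_apply]
    refine Finset.sum_congr rfl fun i _ => ?_
    rw [map_smul, smul_apply, smul_eq_mul]
  rw [h3]
  refine Finset.sum_congr rfl fun i _ => ?_
  simp only [map_sum, map_smul, smul_eq_mul, h, mul_ite, mul_one, mul_zero, Finset.sum_ite_eq,
    Finset.mem_univ, if_true]
  ring

/-- the length of a vector given by its components in a frame -/
theorem nrm_sum (h₀ : Npc (mt g₀)) (q : Fr g₀) (x : Fin n → ℝ) :
    (sys g₀ h₀).nrm q.pt (∑ i, x i • q.e i) = Real.sqrt (∑ i, x i ^ 2) := by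
  unfold ExpSys.nrm
  refine congrArg Real.sqrt ?_
  rw [sys_ip]
  exact bilin_sum _ _ (fun i j => (ip_eq g₀ q.pt (q.e i) (q.e j)).trans (q.2 i j)) x

/-- **the test map in the direction `g → g₀`** -/
theorem exists_testMapB (g₀ : RMetric (EV n) M) : ∃ C : ℝ, 1 ≤ C ∧
    ∀ (g : RMetric (EV n) M) (φ : ℝ → UT g → UT g) (h₀ : Npc (mt g₀)) (y : Fin n → Fr g₀ → ℝ)
      (δ : ℝ), IsGeoFlow g φ → Adm y → 0 ≤ δ → C * δ ≤ 1 → SmallB g₀ g y δ →
      ∃ Θ : TestMap g g₀ h₀ φ, ∀ p, Θ.w p = desc (WB g₀ g y) (nz g₀ p) + C * δ ^ 3 := by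
  obtain ⟨C, hC, H⟩ := exists_pointwise g₀
  refine ⟨C, hC, fun g φ h₀ y δ hφ hy hδ0 hCδ hs => ?_⟩
  have hrot : ∀ A ∈ H892.Stab n, ∀ f, WB g₀ g y (Fr.rot A f) = WB g₀ g y f := fun A hA f =>
    WB_rot hy hA f
  have H' : ∀ p : UT g, ∃ V : EV n,
      HasDerivAt (fun t => chartAt (EV n) (expg (mt g₀) p.pt (fld y (nz g₀ p)))
        (expg (mt g₀) (φ t p).pt (fld y (nz g₀ (φ t p))))) V 0 ∧
      (sys g₀ h₀).nrm (expg (mt g₀) p.pt (fld y (nz g₀ p))) V ≤
        desc (WB g₀ g y) (nz g₀ p) + C * δ ^ 3 := by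
    intro p
    obtain ⟨f₀, hf₀⟩ := (H892.isBdl_ut g₀).surj (nz g₀ p)
    obtain ⟨q, x, h1, h2, h3⟩ := H g φ y δ hφ hy hδ0 hCδ hs p f₀ hf₀
    refine ⟨∑ i, x i • q.e i, ?_, ?_⟩
    · rw [← h1]; exact h2
    · have h4 : desc (WB g₀ g y) (nz g₀ p) = WB g₀ g y f₀ := by
        rw [← hf₀]
        exact desc_ut hrot f₀
      rw [← h1, nrm_sum, h4]
      exact h3
  choose V hV1 hV2 using H'
  have hY : Continuous fun p : UT g =>
      (⟨p.pt, fld y (nz g₀ p)⟩ : TangentBundle 𝓘(ℝ, EV n) M) :=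
    (continuous_fld hy).comp continuous_nz
  have hw : Continuous fun p : UT g => desc (WB g₀ g y) (nz g₀ p) + C * δ ^ 3 :=
    ((continuous_desc hrot (smF_WB hy).continuous).comp continuous_nz).add continuous_const
  exact ⟨TestMap.ofExp (φ := φ) g₀ h₀ h₀ (fun p => fld y (nz g₀ p)) hY V _ hw hV1 hV2,
    fun p => rfl⟩

end TM

section DatB

open Vale.Agent.P207.H442 Vale.Agent.P207.Kat Vale.Agent.P207.H992

variable {n : ℕ} {M : Type} [TopologicalSpace M] [ChartedSpace (EV n) M]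
  [IsManifold 𝓘(ℝ, EV n) ∞ M] [CompactSpace M] [T2Space M] [NeZero n]
  [MeasurableSpace M] [BorelSpace M] {g g' : RMetric (EV n) M} [Nonempty (Fr g)]

theorem c_Vd_le (D : Dat g) (s : ℕ) (i j : Fin n) (u : SmFr g) :
    D.c s ((frCalc g).V i j u) ≤ D.c (s + 1) u := by
  have h1 : D.c s ((frCalc g).V i j u) ≤ ∑ a, H395.NSys.cN D.S s (D.S.X a u) :=
    Finset.single_le_sum (f := fun a => H395.NSys.cN D.S s (D.S.X a u))
      (fun a _ => c_nonneg D s _) (Finset.mem_univ (Sum.inr (i, j) : H955.Ix n))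
  exact h1.trans (le_add_of_nonneg_left (c_nonneg D s u))

/-- the values of the test field, with the opposite sign -/
def ny (y : Fin n → SmFr g) (i : Fin n) (f : Fr g) : ℝ := - ev f (y i)

theorem dZ_neg_fun {Z : ChField g} {Ψ : ℝ → Fr g → Fr g} (h : IsFlow Z Ψ) {F : Fr g → ℝ}
    (hF : SmF F) (p : Fr g) : dZ Z (fun f => - F f) p = - dZ Z F p := by
  have h1 : HasDerivAt (fun r => - F (Ψ r p)) (dZ Z (fun f => - F f) (Ψ 0 p)) 0 :=
    h.hasDerivAt (H743.SmF.neg hF) p 0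
  have h2 : HasDerivAt (fun r => - F (Ψ r p)) (- dZ Z F (Ψ 0 p)) 0 :=
    (h.hasDerivAt hF p 0).neg
  rw [h.zero] at h1 h2
  exact h1.unique h2

theorem smF_ev (u : SmFr g) : SmF (fun f : Fr g => ev f u) := u.2

theorem adm_ny {y : Fin n → SmFr g} (hy : GAdm y) : Adm (ny y) where
  smooth i := H743.SmF.neg (smF_ev (y i))
  zero f := by
    unfold ny
    rw [hy.1, ev_zero, neg_zero]
  equiv A hA f i := by
    unfold ny
    rw [hy.2 A hA f i, ← Finset.sum_neg_distrib]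
    exact Finset.sum_congr rfl fun j _ => by ring

theorem dZ_hor_ny (y : Fin n → SmFr g) (i m : Fin n) (f : Fr g) :
    dZ (horZ g (Pi.single m 1)) (ny y i) f = - ev f ((frCalc g).H m (y i)) :=
  dZ_neg_fun (isHorFlow_flow g (Pi.single m 1)).isFlow (smF_ev (y i)) f

theorem dZ_ver_ny (y : Fin n → SmFr g) (i : Fin n) {j k : Fin n} (hjk : j ≠ k) (f : Fr g) :
    dZ (verZ g (Brk.rot j k)) (ny y i) f = - ev f ((frCalc g).V j k (y i)) :=
  dZ_neg_fun (isFlow_ver (g := g) (isGen_rot hjk)) (smF_ev (y i)) f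

theorem kf_eq_ev {k : Fin n → Fin n → SmFr g} (hk : IsK g g' k) (i j : Fin n) :
    kf g g' i j = fun f => ev f (k i j) := by
  funext f
  rw [ev_isK hk, kf_eq_KK]

theorem dZ_kf_eq {k : Fin n → Fin n → SmFr g} (hk : IsK g g' k) (m i j : Fin n) (f : Fr g) :
    dZ (horZ g (Pi.single m 1)) (kf g g' i j) f = ev f ((frCalc g).H m (k i j)) := by
  rw [kf_eq_ev hk]
  rfl

theorem smallB_of (D : Dat g) {k : Fin n → Fin n → SmFr g} {y : Fin n → SmFr g}
    (hk : IsK g g' k) : SmallB g g' (ny y) (D.cT 2 k + D.cV 1 y) := by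
  have hk2 := cT_nonneg D 2 k
  have hy1 := cV_nonneg D 1 y
  have a1 : ∀ i j, D.c 1 (k i j) ≤ D.cT 2 k + D.cV 1 y := fun i j =>
    ((c_le_succ D 1 _).trans (c_le_cT D 2 k i j)).trans (le_add_of_nonneg_right hy1)
  have a2 : ∀ i, D.c 1 (y i) ≤ D.cT 2 k + D.cV 1 y := fun i =>
    (c_le_cV D 1 y i).trans (le_add_of_nonneg_left hk2)
  refine ⟨fun i j f => ?_, fun m i j f => ?_, fun i f => ?_, fun i f => ?_, fun i j f hj => ?_⟩
  · rw [kf_eq_ev hk]
    exact ((abs_ev_le D _ f).trans (c_le_succ D 0 _)).trans (a1 i j)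
  · rw [dZ_kf_eq hk]
    exact ((abs_ev_le D _ f).trans (c_Hd_le D 0 m _)).trans (a1 i j)
  · unfold ny
    rw [abs_neg]
    exact ((abs_ev_le D _ f).trans (c_le_succ D 0 _)).trans (a2 i)
  · rw [dZ_hor_ny, abs_neg]
    exact ((abs_ev_le D _ f).trans (c_Hd_le D 0 0 _)).trans (a2 i)
  · rw [dZ_ver_ny y i hj, abs_neg]
    exact ((abs_ev_le D _ f).trans (c_Vd_le D 0 j 0 _)).trans (a2 i)

theorem WB_ny {k : Fin n → Fin n → SmFr g} (y : Fin n → SmFr g) (hk : IsK g g' k) (f : Fr g) :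
    WB g g' (ny y) f = 1 - KK g' f 0 0 / 2 + 3 / 8 * KK g' f 0 0 ^ 2 +
      ev f (H992.LB (frCalc g) k y) := by
  have e1 : ∑ j, Zb g g' j f * ny y j f = - ∑ j, ev f (Zf (frCalc g) k j) * ev f (y j) := by
    rw [← Finset.sum_neg_distrib]
    refine Finset.sum_congr rfl fun j _ => ?_
    unfold Zb ny Zf
    rw [dZ_kf_eq hk, dZ_kf_eq hk, ev_sub, ev_smul]
    ring
  have e2 : Ky g (ny y) f = ∑ i, ∑ j, ev f (Kf (frCalc g) i j) * ev f (y i) * ev f (y j) := by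
    unfold Ky ny
    rw [← Finset.sum_neg_distrib]
    refine Finset.sum_congr rfl fun i _ => ?_
    rw [← Finset.sum_neg_distrib]
    refine Finset.sum_congr rfl fun j _ => ?_
    have h1 : ev f (Kf (frCalc g) i j) = - Rf g f i 0 0 j := rfl
    rw [h1]
    ring
  have e3 : ∑ i, dZ (horZ g (Pi.single 0 1)) (ny y i) f ^ 2 =
      ∑ i, ev f ((frCalc g).H 0 (y i)) * ev f ((frCalc g).H 0 (y i)) := by
    refine Finset.sum_congr rfl fun i _ => ?_
    rw [dZ_hor_ny]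
    ring
  unfold WB H992.LB
  rw [e1, e2, e3, kf_eq_KK, ev_sub, ev_smul, ev_add]
  simp only [ev_sum, ev_mul]
  ring

/-- **(EXP-B)** -/
theorem expB (D : Dat g) : ExpB D := by
  obtain ⟨C, hC, H⟩ := exists_testMapB g
  refine ⟨C, by linarith, fun g' D' h k y hk hy hle => ?_⟩
  have he : 0 ≤ D.cT 2 k + D.cV 1 y := add_nonneg (cT_nonneg D 2 k) (cV_nonneg D 1 y)
  obtain ⟨Θ, hΘ⟩ := H g' D'.φ h (ny y) _ D'.hφ (adm_ny hy) he hle (smallB_of D hk)
  refine ⟨Θ, fun f => ?_⟩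
  rw [hΘ, nz_nz, desc_ut (fun A hA f => WB_rot (adm_ny hy) hA f), WB_ny y hk]

end DatB

end Vale.Agent.P207.H608
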