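import Vale.Agent.P207.H608.QVar
import Vale.Agent.P207.Q.H130.Desc
import Vale.Agent.P207.Q.H916.Fr8

/-!
# P207, H608: the second order function of the direction `g → g₀` is a function of the unit vector
-/

open scoped Manifold ContDiff ENNReal Topology
open Bundle MeasureTheory Set Filter

noncomputable section

set_option maxSynthPendingDepth 3
set_option linter.unusedSectionVars false

namespace Vale.Agent.P207.H608

open Vale.Agent.P207.Q Vale.Agent.P207.Q.Fl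
open Vale.Agent.P207.Q.H545 (Rf Rf_eq)
open Vale.Agent.P207.Q.H743 (smF_Rf)
open Vale.Agent.P255 (RMetric coefIn Gam Riem IsGeo Metric Npc ExpSys toMetric geo expg cc trans
  IsGeodesic coefL chris chrisB IsMetricOn covD)

variable {n : ℕ} {M : Type} [TopologicalSpace M] [ChartedSpace (EV n) M]
  [IsManifold 𝓘(ℝ, EV n) ∞ M] [NeZero n] [CompactSpace M] [T2Space M] {g₀ g : RMetric (EV n) M}

/-- the horizontal derivative is linear in the direction -/
theorem dZ_hor_lin (F : Fr g → ℝ) (ξ : Fin n → ℝ) (f : Fr g) :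
    dZ (horZ g ξ) F f = ∑ i, ξ i * dZ (horZ g (Pi.single i 1)) F f := by
  unfold dZ
  rw [horZ_Z, hF_sum, map_sum]
  refine Finset.sum_congr rfl fun i _ => ?_
  rw [map_smul]
  rfl

/-- horizontal derivatives at a rotated frame -/
theorem dZ_rot {F : Fr g → ℝ} (hF : SmF F) (A : Fr.On n) (hF' : SmF fun f => F (Fr.rot A f))
    (j : Fin n) (f : Fr g) :
    dZ (horZ g (Pi.single j 1)) F (Fr.rot A f) =
      ∑ l, A.1 l j * dZ (horZ g (Pi.single l 1)) (fun f => F (Fr.rot A f)) f := by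
  have : Nonempty (Fr g) := ⟨f⟩
  have hΦ := isHorFlow_flow g (Pi.single j 1)
  have hΨ := isHorFlow_flow g (A.1.mulVec (Pi.single j 1))
  have h1 := hΦ.isFlow.hasDerivAt hF (Fr.rot A f) 0
  have h2 := hΨ.isFlow.hasDerivAt hF' f 0
  have h3 : ∀ t, CSys.flow (horVF g (Pi.single j 1)) t (Fr.rot A f) =
      Fr.rot A (CSys.flow (horVF g (A.1.mulVec (Pi.single j 1))) t f) := fun t =>
    hΦ.rot hΨ A rfl t f
  rw [hΦ.zero] at h1
  rw [hΨ.zero] at h2
  simp only [h3] at h1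
  rw [h1.unique h2, dZ_hor_lin]
  refine Finset.sum_congr rfl fun l _ => ?_
  congr 1
  simp

/-- derivatives of linear combinations -/
theorem dZ_sum_mul {Z : ChField g} {Ψ : ℝ → Fr g → Fr g} (h : IsFlow Z Ψ) {κ : Type} [Fintype κ]
    (c : κ → ℝ) {G : κ → Fr g → ℝ} (hG : ∀ l, SmF (G l)) (p : Fr g) :
    dZ Z (fun f => ∑ l, c l * G l f) p = ∑ l, c l * dZ Z (G l) p := by
  have h1 : SmF (fun f => ∑ l, c l * G l f) :=
    H743.SmF.sum Finset.univ fun l _ => H743.SmF.const_smul (hG l) (c l)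
  have h2 := h.hasDerivAt h1 p 0
  have h3 : HasDerivAt (fun r => ∑ l, c l * G l (Ψ r p)) (∑ l, c l * dZ Z (G l) (Ψ 0 p)) 0 :=
    HasDerivAt.fun_sum fun l _ => (h.hasDerivAt (hG l) p 0).const_mul (c l)
  rw [h.zero] at h2 h3
  exact h2.unique h3

theorem orth_rows (A : Fr.On n) (j k : Fin n) :
    ∑ i, A.1 j i * A.1 k i = if j = k then 1 else 0 := by
  have h1 : A.1 * A.1.transpose = 1 := (Matrix.mem_orthogonalGroup_iff (Fin n) ℝ).1 A.2
  have h3 := congrFun (congrFun h1 j) k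
  rw [Matrix.mul_apply, Matrix.one_apply] at h3
  exact h3

theorem orth_cols (A : Fr.On n) (j k : Fin n) :
    ∑ i, A.1 i j * A.1 i k = if j = k then 1 else 0 := by
  have h1 : A.1.transpose * A.1 = 1 := (Matrix.mem_orthogonalGroup_iff' (Fin n) ℝ).1 A.2
  have h3 := congrFun (congrFun h1 j) k
  rw [Matrix.mul_apply, Matrix.one_apply] at h3
  exact h3

theorem stab_col {A : Fr.On n} (hA : A ∈ H892.Stab n) (l : Fin n) :
    A.1 l 0 = if l = 0 then 1 else 0 := by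
  have h1 := congrFun (mulVec_of_mem_Stab hA) l
  simpa [Pi.single_apply] using h1

theorem stab_row {A : Fr.On n} (hA : A ∈ H892.Stab n) (l : Fin n) :
    A.1 0 l = if l = 0 then 1 else 0 := by
  have h1 := stab_col ((H892.Stab n).inv_mem hA) l
  exact h1

/-- pairings of equivariant families are invariant -/
theorem pair_rot (A : Fr.On n) (u v : Fin n → ℝ) :
    ∑ i, (∑ j, A.1 j i * u j) * (∑ k, A.1 k i * v k) = ∑ j, u j * v j := by
  calc ∑ i, (∑ j, A.1 j i * u j) * (∑ k, A.1 k i * v k)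
      = ∑ i, ∑ j, ∑ k, (A.1 j i * A.1 k i) * (u j * v k) := by
        refine Finset.sum_congr rfl fun i _ => ?_
        rw [Finset.sum_mul_sum]
        refine Finset.sum_congr rfl fun j _ => Finset.sum_congr rfl fun k _ => ?_
        ring
    _ = ∑ j, ∑ k, (∑ i, A.1 j i * A.1 k i) * (u j * v k) := by
        rw [Finset.sum_comm]
        refine Finset.sum_congr rfl fun j _ => ?_
        rw [Finset.sum_comm]
        refine Finset.sum_congr rfl fun k _ => ?_
        rw [Finset.sum_mul]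
    _ = ∑ j, u j * v j := by
        refine Finset.sum_congr rfl fun j _ => ?_
        simp only [orth_rows, ite_mul, one_mul, zero_mul, Finset.sum_ite_eq, Finset.mem_univ,
          if_true]

theorem kf_rot (A : Fr.On n) (i j : Fin n) (f : Fr g₀) :
    kf g₀ g i j (Fr.rot A f) = ∑ k, ∑ l, A.1 k i * A.1 l j * kf g₀ g k l f := by
  have h1 := inner_mulR g f.1 A.1 i j
  have h2 : ∑ k, ∑ l, A.1 k i * A.1 l j * (if k = l then (1 : ℝ) else 0) =
      if i = j then 1 else 0 := by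
    rw [← orth_cols A i j]
    refine Finset.sum_congr rfl fun k _ => ?_
    simp
  have h3 : kf g₀ g i j (Fr.rot A f) = (∑ k, ∑ l, A.1 k i * A.1 l j *
      (g.inner f.1.pt (f.1.e k) (f.1.e l) : ℝ)) - if i = j then 1 else 0 := by
    unfold kf
    exact congrArg (fun x : ℝ => x - if i = j then 1 else 0) h1
  rw [h3, ← h2, ← Finset.sum_sub_distrib]
  refine Finset.sum_congr rfl fun k _ => ?_
  rw [← Finset.sum_sub_distrib]
  refine Finset.sum_congr rfl fun l _ => ?_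
  unfold kf
  rw [← mul_sub]
  rfl

theorem kf_rot_zero {A : Fr.On n} (hA : A ∈ H892.Stab n) (j : Fin n) (f : Fr g₀) :
    kf g₀ g 0 j (Fr.rot A f) = ∑ l, A.1 l j * kf g₀ g 0 l f := by
  rw [kf_rot]
  have h1 : ∀ k, ∑ l, A.1 k 0 * A.1 l j * kf g₀ g k l f =
      if k = 0 then ∑ l, A.1 l j * kf g₀ g 0 l f else 0 := by
    intro k
    rw [stab_col hA]
    by_cases hk : k = 0
    · simp [hk]
    · simp [hk]
  simp only [h1, Finset.sum_ite_eq', Finset.mem_univ, if_true]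

theorem kf_rot_zero_zero {A : Fr.On n} (hA : A ∈ H892.Stab n) (f : Fr g₀) :
    kf g₀ g 0 0 (Fr.rot A f) = kf g₀ g 0 0 f := by
  rw [kf_rot_zero hA]
  simp only [stab_col hA, ite_mul, one_mul, zero_mul, Finset.sum_ite_eq', Finset.mem_univ,
    if_true]

/-- the field `Z_j = H₀ k_0j - (1/2) H_j k_00` -/
def Zb (g₀ g : RMetric (EV n) M) (j : Fin n) (f : Fr g₀) : ℝ :=
  dZ (horZ g₀ (Pi.single 0 1)) (kf g₀ g 0 j) f - dZ (horZ g₀ (Pi.single j 1)) (kf g₀ g 0 0) f / 2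

theorem Zb_rot {A : Fr.On n} (hA : A ∈ H892.Stab n) (j : Fin n) (f : Fr g₀) :
    Zb g₀ g j (Fr.rot A f) = ∑ l, A.1 l j * Zb g₀ g l f := by
  have : Nonempty (Fr g₀) := ⟨f⟩
  unfold Zb
  have h1 : (fun f : Fr g₀ => kf g₀ g 0 j (Fr.rot A f)) = fun f => ∑ l, A.1 l j * kf g₀ g 0 l f :=
    funext fun f => kf_rot_zero hA j f
  have h2 : (fun f : Fr g₀ => kf g₀ g 0 0 (Fr.rot A f)) = kf g₀ g 0 0 :=
    funext fun f => kf_rot_zero_zero hA f
  have hs : SmF (fun f : Fr g₀ => ∑ l, A.1 l j * kf g₀ g 0 l f) :=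
    H743.SmF.sum Finset.univ fun l _ => H743.SmF.const_smul (smF_kf 0 l) _
  have e1 : dZ (horZ g₀ (Pi.single 0 1)) (kf g₀ g 0 j) (Fr.rot A f) =
      ∑ l, A.1 l j * dZ (horZ g₀ (Pi.single 0 1)) (kf g₀ g 0 l) f := by
    rw [dZ_rot (smF_kf 0 j) A (by rw [h1]; exact hs), h1]
    simp only [stab_col hA, ite_mul, one_mul, zero_mul, Finset.sum_ite_eq', Finset.mem_univ,
      if_true]
    exact dZ_sum_mul (isHorFlow_flow g₀ (Pi.single 0 1)).isFlow (fun l => A.1 l j)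
      (fun l => smF_kf 0 l) f
  have e2 : dZ (horZ g₀ (Pi.single j 1)) (kf g₀ g 0 0) (Fr.rot A f) =
      ∑ l, A.1 l j * dZ (horZ g₀ (Pi.single l 1)) (kf g₀ g 0 0) f := by
    rw [dZ_rot (smF_kf 0 0) A (by rw [h2]; exact smF_kf 0 0), h2]
  rw [e1, e2, Finset.sum_div, ← Finset.sum_sub_distrib]
  refine Finset.sum_congr rfl fun l _ => ?_
  ring

theorem dZ_y_rot {y : Fin n → Fr g₀ → ℝ} (hy : Adm y) {A : Fr.On n} (hA : A ∈ H892.Stab n)
    (i : Fin n) (f : Fr g₀) : dZ (horZ g₀ (Pi.single 0 1)) (y i) (Fr.rot A f) =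
      ∑ l, A.1 l i * dZ (horZ g₀ (Pi.single 0 1)) (y l) f := by
  have : Nonempty (Fr g₀) := ⟨f⟩
  have h1 : (fun f : Fr g₀ => y i (Fr.rot A f)) = fun f => ∑ l, A.1 l i * y l f :=
    funext fun f => hy.equiv A hA f i
  have hs : SmF (fun f : Fr g₀ => ∑ l, A.1 l i * y l f) :=
    H743.SmF.sum Finset.univ fun l _ => H743.SmF.const_smul (hy.smooth l) _
  rw [dZ_rot (hy.smooth i) A (by rw [h1]; exact hs), h1]
  simp only [stab_col hA, ite_mul, one_mul, zero_mul, Finset.sum_ite_eq', Finset.mem_univ,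
    if_true]
  exact dZ_sum_mul (isHorFlow_flow g₀ (Pi.single 0 1)).isFlow (fun l => A.1 l i)
    (fun l => hy.smooth l) f

theorem Rf_rot_stab {A : Fr.On n} (hA : A ∈ H892.Stab n) (i j : Fin n) (f : Fr g₀) :
    Rf g₀ (Fr.rot A f) i 0 0 j = ∑ k, ∑ l, A.1 k i * A.1 l j * Rf g₀ f k 0 0 l := by
  rw [H130.Rf_rot]
  refine Finset.sum_congr rfl fun k _ => ?_
  simp only [stab_col hA, ite_mul, one_mul, zero_mul, Finset.sum_ite_eq', Finset.mem_univ,
    if_true]
  rw [Finset.mul_sum]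
  refine Finset.sum_congr rfl fun l _ => ?_
  ring

/-- the quadratic form `∑ R(i,0,0,j) yᵢ y_j` -/
def Ky (g₀ : RMetric (EV n) M) (y : Fin n → Fr g₀ → ℝ) (f : Fr g₀) : ℝ :=
  - ∑ i, ∑ j, Rf g₀ f i 0 0 j * y i f * y j f

/-- the second order function of the direction `g → g₀` -/
def WB (g₀ g : RMetric (EV n) M) (y : Fin n → Fr g₀ → ℝ) (f : Fr g₀) : ℝ :=
  1 - kf g₀ g 0 0 f / 2 + 3 / 8 * kf g₀ g 0 0 f ^ 2 + (∑ j, Zb g₀ g j f * y j f) + Ky g₀ y f / 2 +
    (∑ i, dZ (horZ g₀ (Pi.single 0 1)) (y i) f ^ 2) / 2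

theorem Ky_rot {y : Fin n → Fr g₀ → ℝ} (hy : Adm y) {A : Fr.On n} (hA : A ∈ H892.Stab n)
    (f : Fr g₀) : Ky g₀ y (Fr.rot A f) = Ky g₀ y f := by
  unfold Ky
  congr 1
  have h1 : ∀ i, y i f = ∑ l, A.1 i l * y l (Fr.rot A f) := by
    intro i
    have h2 : ∀ l, y l (Fr.rot A f) = ∑ j, A.1 j l * y j f := fun l => hy.equiv A hA f l
    simp only [h2, Finset.mul_sum]
    rw [Finset.sum_comm]
    have h3 : ∀ j, ∑ l, A.1 i l * (A.1 j l * y j f) = (if i = j then 1 else 0) * y j f := by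
      intro j
      rw [← orth_rows A i j, Finset.sum_mul]
      exact Finset.sum_congr rfl fun l _ => by ring
    simp only [h3, ite_mul, one_mul, zero_mul, Finset.sum_ite_eq, Finset.mem_univ, if_true]
  calc ∑ i, ∑ j, Rf g₀ (Fr.rot A f) i 0 0 j * y i (Fr.rot A f) * y j (Fr.rot A f)
      = ∑ i, ∑ j, ∑ k, ∑ l, Rf g₀ f k 0 0 l * (A.1 k i * y i (Fr.rot A f)) *
          (A.1 l j * y j (Fr.rot A f)) := by
        refine Finset.sum_congr rfl fun i _ => Finset.sum_congr rfl fun j _ => ?_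
        rw [Rf_rot_stab hA]
        simp only [Finset.sum_mul]
        refine Finset.sum_congr rfl fun k _ => Finset.sum_congr rfl fun l _ => ?_
        ring
    _ = ∑ k, ∑ l, ∑ i, ∑ j, Rf g₀ f k 0 0 l * (A.1 k i * y i (Fr.rot A f)) *
          (A.1 l j * y j (Fr.rot A f)) := by
        have e1 : ∀ i, ∑ j, ∑ k, ∑ l, Rf g₀ f k 0 0 l * (A.1 k i * y i (Fr.rot A f)) *
            (A.1 l j * y j (Fr.rot A f)) = ∑ k, ∑ l, ∑ j, Rf g₀ f k 0 0 l *
              (A.1 k i * y i (Fr.rot A f)) * (A.1 l j * y j (Fr.rot A f)) := by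
          intro i
          rw [Finset.sum_comm]
          exact Finset.sum_congr rfl fun k _ => Finset.sum_comm
        simp only [e1]
        rw [Finset.sum_comm]
        exact Finset.sum_congr rfl fun k _ => Finset.sum_comm
    _ = ∑ k, ∑ l, Rf g₀ f k 0 0 l * y k f * y l f := by
        refine Finset.sum_congr rfl fun k _ => Finset.sum_congr rfl fun l _ => ?_
        conv_rhs => rw [h1 k, h1 l]
        rw [mul_assoc, Finset.sum_mul_sum, Finset.mul_sum]
        refine Finset.sum_congr rfl fun i _ => ?_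
        rw [Finset.mul_sum]
        refine Finset.sum_congr rfl fun j _ => ?_
        ring

theorem WB_rot {y : Fin n → Fr g₀ → ℝ} (hy : Adm y) {A : Fr.On n} (hA : A ∈ H892.Stab n)
    (f : Fr g₀) : WB g₀ g y (Fr.rot A f) = WB g₀ g y f := by
  unfold WB
  rw [kf_rot_zero_zero hA, Ky_rot hy hA]
  have h1 : ∑ j, Zb g₀ g j (Fr.rot A f) * y j (Fr.rot A f) = ∑ j, Zb g₀ g j f * y j f := by
    simp only [Zb_rot hA, fun i => hy.equiv A hA f i]
    exact pair_rot A (fun l => Zb g₀ g l f) (fun l => y l f)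
  have h2 : ∑ i, dZ (horZ g₀ (Pi.single 0 1)) (y i) (Fr.rot A f) ^ 2 =
      ∑ i, dZ (horZ g₀ (Pi.single 0 1)) (y i) f ^ 2 := by
    simp only [dZ_y_rot hy hA, sq]
    exact pair_rot A (fun l => dZ (horZ g₀ (Pi.single 0 1)) (y l) f)
      (fun l => dZ (horZ g₀ (Pi.single 0 1)) (y l) f)
  rw [h1, h2]

/-- descent to the unit tangent bundle -/
def desc (W : Fr g₀ → ℝ) (p : UT g₀) : ℝ := W (Function.surjInv (H892.isBdl_ut g₀).surj p)

theorem desc_ut {W : Fr g₀ → ℝ} (hW : ∀ A ∈ H892.Stab n, ∀ f, W (Fr.rot A f) = W f)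
    (f : Fr g₀) : desc W (f.ut 0) = W f := by
  obtain ⟨A, hA⟩ := (H892.isBdl_ut g₀).trans f (Function.surjInv (H892.isBdl_ut g₀).surj (f.ut 0))
    (Function.surjInv_eq (H892.isBdl_ut g₀).surj (f.ut 0)).symm
  unfold desc
  rw [← hA]
  exact hW _ ((H892.Stab n).inv_mem A.2) f

theorem continuous_desc {W : Fr g₀ → ℝ} (hW : ∀ A ∈ H892.Stab n, ∀ f, W (Fr.rot A f) = W f)
    (hc : Continuous W) : Continuous (desc W) := by
  refine continuous_of_ut ?_
  simp only [desc_ut hW]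
  exact hc

theorem smF_WB {y : Fin n → Fr g₀ → ℝ} (hy : Adm y) : SmF (WB g₀ g y) := by
  rcases isEmpty_or_nonempty (Fr g₀) with he | hne
  · intro a z hz
    exact ContDiffAt.contDiffWithinAt ((he.false (frOf g₀ a z hz)).elim)
  have hH : ∀ (m : Fin n) {F : Fr g₀ → ℝ}, SmF F → SmF (dZ (horZ g₀ (Pi.single m 1)) F) :=
    fun m F hF => (isHorFlow_flow g₀ (Pi.single m 1)).isFlow.smF_dZ hF
  have hk := smF_kf (g₀ := g₀) (g := g) 0 0
  have hZ : ∀ j, SmF (Zb g₀ g j) := fun j => by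
    have h1 := hH j hk
    have h2 := H743.SmF.sub (hH 0 (smF_kf (g := g) 0 j)) (H743.SmF.const_smul h1 (1 / 2 : ℝ))
    have h3 : Zb g₀ g j = fun p => dZ (horZ g₀ (Pi.single 0 1)) (kf g₀ g 0 j) p -
        (1 / 2 : ℝ) • dZ (horZ g₀ (Pi.single j 1)) (kf g₀ g 0 0) p := by
      funext p
      unfold Zb
      rw [smul_eq_mul]
      ring
    rw [h3]
    exact h2
  have hKy : SmF (Ky g₀ y) := H743.SmF.neg (H743.SmF.sum Finset.univ fun i _ =>
    H743.SmF.sum Finset.univ fun j _ =>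
      SmF.mul (SmF.mul (smF_Rf i 0 0 j) (hy.smooth i)) (hy.smooth j))
  have h1 : SmF (fun f : Fr g₀ => ∑ j, Zb g₀ g j f * y j f) :=
    H743.SmF.sum Finset.univ fun j _ => SmF.mul (hZ j) (hy.smooth j)
  have h2 : SmF (fun f : Fr g₀ => ∑ i, dZ (horZ g₀ (Pi.single 0 1)) (y i) f *
      dZ (horZ g₀ (Pi.single 0 1)) (y i) f) :=
    H743.SmF.sum Finset.univ fun i _ => SmF.mul (hH 0 (hy.smooth i)) (hH 0 (hy.smooth i))
  have h3 := (((((SmF.const (g := g₀) (1 : ℝ)).add (H743.SmF.const_smul hk (-(1 / 2) : ℝ))).add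
    (H743.SmF.const_smul (SmF.mul hk hk) (3 / 8 : ℝ))).add h1).add
      (H743.SmF.const_smul hKy (1 / 2 : ℝ))).add (H743.SmF.const_smul h2 (1 / 2 : ℝ))
  have h4 : WB g₀ g y = fun p => (1 : ℝ) + (-(1 / 2) : ℝ) • kf g₀ g 0 0 p +
      (3 / 8 : ℝ) • (kf g₀ g 0 0 p * kf g₀ g 0 0 p) + (∑ j, Zb g₀ g j p * y j p) +
      (1 / 2 : ℝ) • Ky g₀ y p + (1 / 2 : ℝ) • (∑ i, dZ (horZ g₀ (Pi.single 0 1)) (y i) p *
        dZ (horZ g₀ (Pi.single 0 1)) (y i) p) := by
    funext p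
    unfold WB
    simp only [smul_eq_mul, sq]
    ring
  rw [h4]
  exact h3

end Vale.Agent.P207.H608
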