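import Vale.Agent.P207.H248.VarG
import Vale.Agent.P207.H248.Tay
import Vale.Agent.P207.H608.Adm
import Vale.Agent.P207.Q.H743.CurvSm

/-!
# P207, H608: the second order expansion of the velocity of `exp (c t, η t)`, with uniform constants
-/

open scoped Manifold ContDiff ENNReal Topology
open Bundle MeasureTheory Set Filter

noncomputable section

set_option maxSynthPendingDepth 3
set_option linter.unusedSectionVars false

namespace Vale.Agent.P207.H608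

open Vale.Agent.P207.Q Vale.Agent.P207.Q.Fl Vale.Agent.P207.H248
open Vale.Agent.P207.Q.H545 (Rf Rf_eq)
open Vale.Agent.P207.Q.H743 (smF_Rf)
open Vale.Agent.P255 (RMetric coefIn Gam Riem IsGeo Metric Npc ExpSys toMetric geo expg cc trans
  IsGeodesic coefL chris chrisB IsMetricOn covD)

variable {n : ℕ} {M : Type} [TopologicalSpace M] [ChartedSpace (EV n) M]
  [IsManifold 𝓘(ℝ, EV n) ∞ M] [NeZero n] [CompactSpace M] [T2Space M] {g : RMetric (EV n) M}

/-- the base point of a horizontal curve is a geodesic -/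
theorem flow_pt [Nonempty (Fr g)] (ξ : Fin n → ℝ) (f : Fr g) (s : ℝ) :
    (CSys.flow (horVF g ξ) s f).pt = geo (mt g) f.pt (∑ i, ξ i • f.e i) s := by
  have hΦ := isHorFlow_flow g ξ
  have h0 : CSys.flow (horVF g ξ) 0 f = f := hΦ.zero f
  have h1 := (hΦ f).2
  have h2 := isGeodesic_hor h1
  have h3 : stv (fun t => (CSys.flow (horVF g ξ) t f).pt) 0 =
      (⟨f.pt, ∑ i, ξ i • f.e i⟩ : TangentBundle 𝓘(ℝ, EV n) M) := by
    refine stv_eq_of_deriv h2 ?_ ?_
    · simp only [h0]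
      rfl
    · have ha : (CSys.flow (horVF g ξ) 0 f).pt ∈ (chartAt (EV n) f.pt).source := by
        rw [h0]; exact mem_chart_source _ _
      have h4 := (deriv_cc_hor h1 ha).deriv
      refine h4.trans ?_
      refine Finset.sum_congr rfl fun i _ => ?_
      congr 1
      rw [h0]
      exact P255.fderiv_trans_self f.pt (mem_chart_target (EV n) f.pt) _
  exact congrFun (eq_geo h2 h3) s

theorem flow_pt_one [Nonempty (Fr g)] (ξ : Fin n → ℝ) (f : Fr g) :
    (CSys.flow (horVF g ξ) 1 f).pt = expg (mt g) f.pt (∑ i, ξ i • f.e i) := flow_pt ξ f 1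

/-- a smooth function and its horizontal derivatives are bounded -/
theorem exists_bound_smF {F : Fr g → ℝ} (hF : SmF F) :
    ∃ C : ℝ, 0 ≤ C ∧ (∀ f, |F f| ≤ C) ∧ ∀ (m : Fin n) f, |dZ (horZ g (Pi.single m 1)) F f| ≤ C := by
  rcases isEmpty_or_nonempty (Fr g) with he | hne
  · exact ⟨0, le_rfl, fun f => (he.false f).elim, fun m f => (he.false f).elim⟩
  have hd : ∀ m, Continuous (dZ (horZ g (Pi.single m 1)) F) := fun m =>
    ((isHorFlow_flow g (Pi.single m 1)).isFlow.smF_dZ hF).continuous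
  have hb : ∀ {G : Fr g → ℝ}, Continuous G → ∃ C : ℝ, 0 ≤ C ∧ ∀ f, |G f| ≤ C := by
    intro G hG
    obtain ⟨C, hC⟩ := (isCompact_range hG).isBounded.exists_norm_le
    exact ⟨|C|, abs_nonneg C, fun f => (hC _ (mem_range_self f)).trans (le_abs_self C)⟩
  obtain ⟨C₀, hC₀, h₀⟩ := hb hF.continuous
  choose C hC h using fun m => hb (hd m)
  refine ⟨C₀ + ∑ m, C m, add_nonneg hC₀ (Finset.sum_nonneg fun m _ => hC m), fun f => ?_,
    fun m f => ?_⟩
  · exact (h₀ f).trans (le_add_of_nonneg_right (Finset.sum_nonneg fun m _ => hC m))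
  · refine (h m f).trans ?_
    have h1 : C m ≤ ∑ m, C m := Finset.single_le_sum (fun m _ => hC m) (Finset.mem_univ m)
    linarith

/-- the curvature and its horizontal derivatives are bounded -/
theorem exists_bound_Rf (g : RMetric (EV n) M) :
    ∃ C : ℝ, 1 ≤ C ∧ (∀ f i j k l, |Rf g f i j k l| ≤ C) ∧
      ∀ (m : Fin n) f i j k l,
        |dZ (horZ g (Pi.single m 1)) (fun f => Rf g f i j k l) f| ≤ C := by
  choose C hC h1 h2 using fun q : Fin n × Fin n × Fin n × Fin n =>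
    exists_bound_smF (smF_Rf (g := g) q.1 q.2.1 q.2.2.1 q.2.2.2)
  have hle : ∀ q, C q ≤ 1 + ∑ q, C q := by
    intro q
    have h3 : C q ≤ ∑ q, C q := Finset.single_le_sum (fun q _ => hC q) (Finset.mem_univ q)
    linarith
  refine ⟨1 + ∑ q, C q, le_add_of_nonneg_right (Finset.sum_nonneg fun q _ => hC q), ?_, ?_⟩
  · intro f i j k l
    exact (h1 (i, j, k, l) f).trans (hle _)
  · intro m f i j k l
    exact (h2 (i, j, k, l) m f).trans (hle _)

/-- the variation of a smooth function along a horizontal curve -/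
theorem abs_flow_sub_le [Nonempty (Fr g)] {F : Fr g → ℝ} (hF : SmF F) {C δ : ℝ} (hδ : 0 ≤ δ)
    (hd : ∀ (m : Fin n) f, |dZ (horZ g (Pi.single m 1)) F f| ≤ C) {ξ : Fin n → ℝ}
    (hξ : ∀ i, |ξ i| ≤ δ) (f : Fr g) {s : ℝ} (hs : s ∈ Icc (0 : ℝ) 1) :
    |F (CSys.flow (horVF g ξ) s f) - F f| ≤ n * δ * C := by
  have hΦ := isHorFlow_flow g ξ
  have h0 : CSys.flow (horVF g ξ) 0 f = f := hΦ.zero f
  have hder : ∀ f, |dZ (horZ g ξ) F f| ≤ n * δ * C := by
    intro f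
    have ha : f.pt ∈ (chartAt (EV n) f.pt).source := mem_chart_source _ _
    have h1 : dZ (horZ g ξ) F f = ∑ i, ξ i * dZ (horZ g (Pi.single i 1)) F f := by
      unfold dZ
      rw [horZ_Z, hF_sum, map_sum]
      refine Finset.sum_congr rfl fun i _ => ?_
      rw [map_smul]
      rfl
    rw [h1]
    calc |∑ i, ξ i * dZ (horZ g (Pi.single i 1)) F f|
        ≤ ∑ i, |ξ i * dZ (horZ g (Pi.single i 1)) F f| := Finset.abs_sum_le_sum_abs _ _
      _ ≤ ∑ _i : Fin n, δ * C := by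
          refine Finset.sum_le_sum fun i _ => ?_
          rw [abs_mul]
          exact mul_le_mul (hξ i) (hd i f) (abs_nonneg _) hδ
      _ = n * δ * C := by
          rw [Finset.sum_const, Finset.card_univ, Fintype.card_fin, nsmul_eq_mul]; ring
  have h2 := taylor1 (φ := fun s => F (CSys.flow (horVF g ξ) s f))
    (ψ := fun s => dZ (horZ g ξ) F (CSys.flow (horVF g ξ) s f)) (c := n * δ * C)
    (fun s => hΦ.isFlow.hasDerivAt hF f s) (fun s _ => hder _) hs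
  rw [h0] at h2
  refine h2.trans ?_
  have hc0 : 0 ≤ n * δ * C := (abs_nonneg _).trans (hder f)
  exact mul_le_of_le_one_right hc0 hs.2

/-- **the second order expansion of the velocity**, with uniform constants -/
theorem exists_qvar (g : RMetric (EV n) M) : ∃ C : ℝ, 1 ≤ C ∧
    ∀ (F : ℝ → Fr g) (η : ℝ → Fin n → ℝ) (ξ η' : Fin n → ℝ) (B : Matrix (Fin n) (Fin n) ℝ)
      (a : M) (δ : ℝ), ContinuousAt F 0 → (F 0).pt ∈ (chartAt (EV n) a).source →
      HasDerivAt (fun t => chF a (F t).1) (tvec ((mt g).coef a) ξ B (chF a (F 0).1)) 0 →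
      HasDerivAt η η' 0 → 0 ≤ δ → C * δ ≤ 1 → (∀ i, |η 0 i| ≤ δ) → (∀ i, |ξ i| ≤ 2) →
      (∀ i, |η' i + ∑ l, B i l * η 0 l| ≤ 2 * δ) →
      ∃ (q : Fr g) (x : Fin n → ℝ), q.pt = expg (mt g) (F 0).pt (∑ i, η 0 i • (F 0).e i) ∧
        HasDerivAt (fun t => chartAt (EV n) q.pt
          (expg (mt g) (F t).pt (∑ i, η t i • (F t).e i))) (∑ i, x i • q.e i) 0 ∧
        ∀ i, |x i - (ξ i + (η' i + ∑ l, B i l * η 0 l) -
          1 / 2 * ∑ j, fK (η 0) (F 0) j i * ξ j)| ≤ C * δ ^ 3 := by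
  obtain ⟨C₀, hC₀, hR, hdR⟩ := exists_bound_Rf g
  have hn1 : (1 : ℝ) ≤ n := by
    have : 1 ≤ n := Nat.one_le_iff_ne_zero.2 (NeZero.ne n)
    exact_mod_cast this
  -- the constant
  set D : ℝ := 30 * n ^ 8 * C₀ ^ 2 with hD
  have hC₀' : 0 ≤ C₀ := by linarith
  have hD1 : 1 ≤ D := by
    have h1 : (1 : ℝ) ≤ n ^ 8 := one_le_pow₀ hn1
    have h2 : (1 : ℝ) ≤ C₀ ^ 2 := one_le_pow₀ hC₀
    have h3 : (1 : ℝ) ≤ n ^ 8 * C₀ ^ 2 := one_le_mul_of_one_le_of_one_le h1 h2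
    rw [hD]; linarith
  refine ⟨D, hD1, ?_⟩
  intro F η ξ η' B a δ hFc hFa hFd hη hδ0 hδ hη0 hξ hB
  have : Nonempty (Fr g) := ⟨F 0⟩
  have hm := (mt g).isMetricOn a
  have ho : Orth ((mt g).coef a (chF a (F 0).1).1) (chF a (F 0).1).2 := orth_chFg g (F 0) a hFa
  obtain ⟨A, B', hJS, hA0, hB0, hend⟩ := var_curve hFc hFa hFd hη
  rw [cH_tvec ho] at hA0
  rw [cV_tvec ho] at hB0
  set q := CSys.flow (horVF g (η 0)) 1 (F 0) with hq
  have hδD : δ ≤ 1 := by
    have : δ ≤ D * δ := le_mul_of_one_le_left hδ0 hD1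
    linarith
  refine ⟨q, A 1, flow_pt_one (η 0) (F 0), ?_, ?_⟩
  · have h1 := hend 1 q.pt (mem_chart_source _ _)
    have h2 : ∀ i, (chF q.pt q.1).2 i = q.e i := fun i =>
      P255.fderiv_trans_self q.pt (mem_chart_target (EV n) q.pt) _
    simp only [← hq, h2] at h1
    refine h1.congr_of_eventuallyEq (Eventually.of_forall fun t => ?_)
    simp only [flow_pt_one]
  · -- bounds of the curvature matrix
    have hK : ∀ s ∈ Icc (0 : ℝ) 1, ∀ i j,
        |fK (η 0) (CSys.flow (horVF g (η 0)) s (F 0)) i j| ≤ n ^ 2 * δ ^ 2 * C₀ := by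
      intro s _ i j
      unfold fK
      calc |∑ k, ∑ l, η 0 k * η 0 l * Rf g (CSys.flow (horVF g (η 0)) s (F 0)) i k l j|
          ≤ ∑ _k : Fin n, ∑ _l : Fin n, δ * δ * C₀ := by
            refine (Finset.abs_sum_le_sum_abs _ _).trans (Finset.sum_le_sum fun k _ => ?_)
            refine (Finset.abs_sum_le_sum_abs _ _).trans (Finset.sum_le_sum fun l _ => ?_)
            rw [abs_mul, abs_mul]
            exact mul_le_mul (mul_le_mul (hη0 k) (hη0 l) (abs_nonneg _) hδ0) (hR _ _ _ _ _)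
              (abs_nonneg _) (by positivity)
        _ = n ^ 2 * δ ^ 2 * C₀ := by
            simp only [Finset.sum_const, Finset.card_univ, Fintype.card_fin, nsmul_eq_mul]; ring
    have hK' : ∀ s ∈ Icc (0 : ℝ) 1, ∀ i j,
        |fK (η 0) (CSys.flow (horVF g (η 0)) s (F 0)) i j -
          fK (η 0) (CSys.flow (horVF g (η 0)) 0 (F 0)) i j| ≤ n ^ 3 * δ ^ 3 * C₀ := by
      intro s hs i j
      have h0 : CSys.flow (horVF g (η 0)) 0 (F 0) = F 0 := (isHorFlow_flow g (η 0)).zero (F 0)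
      rw [h0]
      unfold fK
      rw [← Finset.sum_sub_distrib]
      calc |∑ k, (∑ l, η 0 k * η 0 l * Rf g (CSys.flow (horVF g (η 0)) s (F 0)) i k l j -
            ∑ l, η 0 k * η 0 l * Rf g (F 0) i k l j)|
          ≤ ∑ _k : Fin n, ∑ _l : Fin n, δ * δ * (n * δ * C₀) := by
            refine (Finset.abs_sum_le_sum_abs _ _).trans (Finset.sum_le_sum fun k _ => ?_)
            rw [← Finset.sum_sub_distrib]
            refine (Finset.abs_sum_le_sum_abs _ _).trans (Finset.sum_le_sum fun l _ => ?_)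
            rw [← mul_sub, abs_mul, abs_mul]
            have h1 := abs_flow_sub_le (smF_Rf (g := g) i k l j) hδ0
              (fun m f => hdR m f i k l j) hη0 (F 0) hs
            exact mul_le_mul (mul_le_mul (hη0 k) (hη0 l) (abs_nonneg _) hδ0) h1
              (abs_nonneg _) (by positivity)
        _ = n ^ 3 * δ ^ 3 * C₀ := by
            simp only [Finset.sum_const, Finset.card_univ, Fintype.card_fin, nsmul_eq_mul]; ring
    have hB0' : ∀ i, |B' 0 i| ≤ 2 * δ := by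
      intro i
      rw [hB0]
      exact hB i
    have hm4 : ∀ i, |A 0 i| + |B' 0 i| ≤ 4 := by
      intro i
      have h1 := hB0' i
      have h2 : |A 0 i| ≤ 2 := by rw [hA0]; exact hξ i
      linarith
    have hn2 : (n : ℝ) ^ 3 * C₀ ≤ n ^ 8 * C₀ ^ 2 := by
      have h1 : (n : ℝ) ^ 3 ≤ n ^ 8 := pow_le_pow_right₀ hn1 (by norm_num)
      have h2 : C₀ ≤ C₀ ^ 2 := le_self_pow₀ hC₀ (by norm_num)
      exact mul_le_mul h1 h2 hC₀' (by positivity)
    have hsmall : (n : ℝ) * (n ^ 2 * δ ^ 2 * C₀) ≤ 1 / 2 := by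
      have h1 : (n : ℝ) * (n ^ 2 * δ ^ 2 * C₀) = (n ^ 3 * C₀) * (δ * δ) := by ring
      rw [h1]
      have h2 : (n : ℝ) ^ 3 * C₀ * (δ * δ) ≤ n ^ 8 * C₀ ^ 2 * (δ * 1) :=
        mul_le_mul hn2 (mul_le_mul_of_nonneg_left hδD hδ0) (by positivity) (by positivity)
      have h3 : (n : ℝ) ^ 8 * C₀ ^ 2 * (δ * 1) * 30 = D * δ := by rw [hD]; ring
      linarith
    intro i
    have hT := jac_taylor (K := fun s => fK (η 0) (CSys.flow (horVF g (η 0)) s (F 0)))
      hJS.dA hJS.dB hK hK' hm4 hB0' hsmall i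
    have h0 : CSys.flow (horVF g (η 0)) 0 (F 0) = F 0 := (isHorFlow_flow g (η 0)).zero (F 0)
    simp only [h0, hA0, hB0] at hT
    refine hT.trans ?_
    -- the constant
    have e1 : (n : ℝ) * (n ^ 3 * δ ^ 3 * C₀ * (2 * 4) + n ^ 2 * δ ^ 2 * C₀ *
        (2 * δ + n * (n ^ 2 * δ ^ 2 * C₀ * (2 * 4)))) =
        8 * (n ^ 4 * C₀) * δ ^ 3 + 2 * (n ^ 3 * C₀) * δ ^ 3 +
          8 * (n ^ 6 * C₀ ^ 2) * (δ ^ 3 * δ) := by ring
    rw [e1]
    have hδ3 : 0 ≤ δ ^ 3 := by positivity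
    have p1 : (n : ℝ) ^ 4 * C₀ ≤ n ^ 8 * C₀ ^ 2 := by
      have h1 : (n : ℝ) ^ 4 ≤ n ^ 8 := pow_le_pow_right₀ hn1 (by norm_num)
      have h2 : C₀ ≤ C₀ ^ 2 := le_self_pow₀ hC₀ (by norm_num)
      exact mul_le_mul h1 h2 hC₀' (by positivity)
    have p2 : (n : ℝ) ^ 6 * C₀ ^ 2 ≤ n ^ 8 * C₀ ^ 2 := by
      have h1 : (n : ℝ) ^ 6 ≤ n ^ 8 := pow_le_pow_right₀ hn1 (by norm_num)
      exact mul_le_mul_of_nonneg_right h1 (by positivity)
    have p3 : δ ^ 3 * δ ≤ δ ^ 3 := mul_le_of_le_one_right hδ3 hδD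
    have q1 : 8 * ((n : ℝ) ^ 4 * C₀) * δ ^ 3 ≤ 8 * (n ^ 8 * C₀ ^ 2) * δ ^ 3 :=
      mul_le_mul_of_nonneg_right (by linarith) hδ3
    have q2 : 2 * ((n : ℝ) ^ 3 * C₀) * δ ^ 3 ≤ 2 * (n ^ 8 * C₀ ^ 2) * δ ^ 3 :=
      mul_le_mul_of_nonneg_right (by linarith) hδ3
    have q3 : 8 * ((n : ℝ) ^ 6 * C₀ ^ 2) * (δ ^ 3 * δ) ≤ 8 * (n ^ 8 * C₀ ^ 2) * δ ^ 3 :=
      mul_le_mul (by linarith) p3 (by positivity) (by positivity)
    have q4 : D * δ ^ 3 = 30 * (n ^ 8 * C₀ ^ 2) * δ ^ 3 := by rw [hD]; ring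
    rw [q4]
    have q5 : 0 ≤ (n ^ 8 * C₀ ^ 2) * δ ^ 3 := by positivity
    linarith

end Vale.Agent.P207.H608
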